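import Vale.Agent.P092.H670.Cov
import Vale.Agent.P092.H232.Fund

/-!
P092 (helper670, with helper232's fundamental set): `SL_n(ℤ)` and its subgroups of finite index have finite
covolume in `SL_n(ℝ)`.
-/

open MeasureTheory Matrix Set Topology

namespace Vale.Agent.P092.H670

theorem fund_SLZ (n : ℕ) : Fund (SLZ n) := by
  obtain ⟨F, hF, hvol, hcov⟩ := H232.fund n
  refine ⟨F, hF, hvol, fun X h0 h1 => ?_⟩
  obtain ⟨γ, hγ⟩ := hcov (Matrix.of X) h0 h1
  exact ⟨Matrix.SpecialLinearGroup.map (Int.castRingHom ℝ) γ, ⟨γ, rfl⟩, hγ⟩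

/-- **Finite covolume of `SL_n(ℤ)`**, and of all its subgroups of finite index. -/
theorem exists_prob_finiteIndex (n : ℕ) (Γ : Subgroup (Matrix.SpecialLinearGroup (Fin n) ℝ))
    (hle : Γ ≤ SLZ n) (hfi : Γ.relIndex (SLZ n) ≠ 0)
    [MeasurableSpace (Matrix.SpecialLinearGroup (Fin n) ℝ ⧸ Γ)]
    [BorelSpace (Matrix.SpecialLinearGroup (Fin n) ℝ ⧸ Γ)] :
    ∃ ν : Measure (Matrix.SpecialLinearGroup (Fin n) ℝ ⧸ Γ), IsProbabilityMeasure ν ∧
      ∀ g : Matrix.SpecialLinearGroup (Fin n) ℝ, ν.map (fun x => g • x) = ν := by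
  have : DiscreteTopology Γ :=
    DiscreteTopology.of_subset (s := (SLZ n : Set (Matrix.SpecialLinearGroup (Fin n) ℝ)))
      (discrete_SLZ n) hle
  exact exists_prob_gen Γ ((fund_SLZ n).of_finiteIndex hle hfi)

theorem exists_prob (n : ℕ) [MeasurableSpace (Matrix.SpecialLinearGroup (Fin n) ℝ ⧸ SLZ n)]
    [BorelSpace (Matrix.SpecialLinearGroup (Fin n) ℝ ⧸ SLZ n)] :
    ∃ ν : Measure (Matrix.SpecialLinearGroup (Fin n) ℝ ⧸ SLZ n), IsProbabilityMeasure ν ∧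
      ∀ g : Matrix.SpecialLinearGroup (Fin n) ℝ, ν.map (fun x => g • x) = ν :=
  exists_prob_gen (SLZ n) (fund_SLZ n)

/-- The image in `SL_n(ℝ)` of a subgroup of `SL_n(ℤ)`. -/
def imR {n : ℕ} (Λ : Subgroup (Matrix.SpecialLinearGroup (Fin n) ℤ)) :
    Subgroup (Matrix.SpecialLinearGroup (Fin n) ℝ) :=
  Λ.map (Matrix.SpecialLinearGroup.map (Int.castRingHom ℝ))

lemma imR_le {n : ℕ} (Λ : Subgroup (Matrix.SpecialLinearGroup (Fin n) ℤ)) : imR Λ ≤ SLZ n := by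
  rintro _ ⟨γ, -, rfl⟩
  exact ⟨γ, rfl⟩

instance discrete_imR {n : ℕ} (Λ : Subgroup (Matrix.SpecialLinearGroup (Fin n) ℤ)) :
    DiscreteTopology (imR Λ) :=
  DiscreteTopology.of_subset (s := (SLZ n : Set (Matrix.SpecialLinearGroup (Fin n) ℝ)))
    (discrete_SLZ n) (imR_le Λ)

lemma map_injective (n : ℕ) : Function.Injective
    (Matrix.SpecialLinearGroup.map (n := Fin n) (Int.castRingHom ℝ)) :=
  (isClosedEmbedding_map n).injective

lemma relIndex_imR {n : ℕ} (Λ : Subgroup (Matrix.SpecialLinearGroup (Fin n) ℤ)) [Λ.FiniteIndex] :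
    (imR Λ).relIndex (SLZ n) ≠ 0 := by
  have h : (imR Λ).relIndex (SLZ n) = Λ.index := by
    rw [imR, SLZ, MonoidHom.range_eq_map,
      Subgroup.relIndex_map_map_of_injective _ _ (map_injective n), Subgroup.relIndex_top_right]
  rw [h]
  exact Subgroup.FiniteIndex.index_ne_zero

/-- The isomorphism of a subgroup of `SL_n(ℤ)` with its image in `SL_n(ℝ)`. -/
noncomputable def imEquiv {n : ℕ} (Λ : Subgroup (Matrix.SpecialLinearGroup (Fin n) ℤ)) :
    Λ ≃* imR Λ :=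
  Λ.equivMapOfInjective _ (map_injective n)

/-- A subgroup of finite index of `SL_n(ℤ)` is a lattice of `SL_n(ℝ)`. -/
theorem exists_prob_imR {n : ℕ} (Λ : Subgroup (Matrix.SpecialLinearGroup (Fin n) ℤ)) [Λ.FiniteIndex]
    [MeasurableSpace (Matrix.SpecialLinearGroup (Fin n) ℝ ⧸ imR Λ)]
    [BorelSpace (Matrix.SpecialLinearGroup (Fin n) ℝ ⧸ imR Λ)] :
    ∃ ν : Measure (Matrix.SpecialLinearGroup (Fin n) ℝ ⧸ imR Λ), IsProbabilityMeasure ν ∧
      ∀ g : Matrix.SpecialLinearGroup (Fin n) ℝ, ν.map (fun x => g • x) = ν :=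
  exists_prob_finiteIndex n (imR Λ) (imR_le Λ) (relIndex_imR Λ)

end Vale.Agent.P092.H670
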