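import Mathlib

/-!
P092 (helper670): finite covolume of `SL_n(ℤ)` in `SL_n(ℝ)`.  Part 5: topology of `SL_n(ℝ)` and
discreteness of `SL_n(ℤ)`.
-/

open Matrix Topology

namespace Vale.Agent.P092.H670

instance instLocallyCompactMat (n : ℕ) : LocallyCompactSpace (Matrix (Fin n) (Fin n) ℝ) :=
  inferInstanceAs (LocallyCompactSpace (Fin n → Fin n → ℝ))

instance instSecondCountableMat (n : ℕ) : SecondCountableTopology (Matrix (Fin n) (Fin n) ℝ) :=
  inferInstanceAs (SecondCountableTopology (Fin n → Fin n → ℝ))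

instance instLocallyCompactSL (n : ℕ) :
    LocallyCompactSpace (Matrix.SpecialLinearGroup (Fin n) ℝ) :=
  Matrix.SpecialLinearGroup.isClosedEmbedding_val.locallyCompactSpace

instance instSecondCountableSL (n : ℕ) :
    SecondCountableTopology (Matrix.SpecialLinearGroup (Fin n) ℝ) :=
  Matrix.SpecialLinearGroup.isClosedEmbedding_val.isEmbedding.secondCountableTopology

/-- `SL_n(ℤ)` as a subgroup of `SL_n(ℝ)`. -/
def SLZ (n : ℕ) : Subgroup (Matrix.SpecialLinearGroup (Fin n) ℝ) :=
  (Matrix.SpecialLinearGroup.map (Int.castRingHom ℝ)).range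

theorem isClosedEmbedding_map (n : ℕ) :
    IsClosedEmbedding (Matrix.SpecialLinearGroup.map (n := Fin n) (Int.castRingHom ℝ)) :=
  Topology.IsClosedEmbedding.specialLinearGroup_map Int.isClosedEmbedding_coe_real

theorem discrete_SLZ (n : ℕ) : DiscreteTopology (SLZ n) := by
  have h := (isClosedEmbedding_map n).isEmbedding.toHomeomorph
  exact h.symm.isEmbedding.discreteTopology

instance (n : ℕ) : DiscreteTopology (SLZ n) := discrete_SLZ n

theorem isClosed_SLZ (n : ℕ) : IsClosed (SLZ n : Set (Matrix.SpecialLinearGroup (Fin n) ℝ)) :=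
  (isClosedEmbedding_map n).isClosed_range

instance instCountableSLZ (n : ℕ) : Countable (SLZ n) :=
  TopologicalSpace.separableSpace_iff_countable.1 inferInstance

end Vale.Agent.P092.H670
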