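import Mathlib

/-!
P092 (helper670): finite covolume of `SL_n(ℤ)` in `SL_n(ℝ)`.  Part 2: every integer vector is a multiple of
the first column of a matrix in `SL_n(ℤ)`.
-/

open Matrix

namespace Vale.Agent.P092.H670

/-- The transvection as an element of `SL`. -/
def tv {n : ℕ} (i j : Fin n) (h : i ≠ j) (c : ℤ) : SpecialLinearGroup (Fin n) ℤ :=
  ⟨transvection i j c, det_transvection_of_ne i j h c⟩

lemma tv_mulVec {n : ℕ} (i j : Fin n) (h : i ≠ j) (c : ℤ) (v : Fin n → ℤ) :
    (tv i j h c : Matrix (Fin n) (Fin n) ℤ) *ᵥ v =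
      fun k => if k = i then v i + c * v j else v k := by
  funext k
  show (transvection i j c *ᵥ v) k = _
  simp only [transvection, Matrix.add_mulVec, Matrix.one_mulVec, Pi.add_apply]
  by_cases hk : k = i
  · subst hk
    simp [Matrix.mulVec, dotProduct, Matrix.single_apply]
  · simp [Matrix.mulVec, dotProduct, Matrix.single_apply, hk, Ne.symm hk]

theorem exists_col {n : ℕ} (N : ℕ) : ∀ v : Fin (n + 1) → ℤ, (∑ i, (v i).natAbs) ≤ N →
    ∃ (γ : SpecialLinearGroup (Fin (n + 1)) ℤ) (d : ℤ),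
      v = (γ : Matrix (Fin (n + 1)) (Fin (n + 1)) ℤ) *ᵥ (Pi.single 0 d) := by
  induction N with
  | zero =>
    intro v hv
    refine ⟨1, 0, ?_⟩
    have : v = 0 := by
      funext i
      have h1 : (v i).natAbs ≤ ∑ i, (v i).natAbs :=
        Finset.single_le_sum (f := fun i => (v i).natAbs) (fun _ _ => Nat.zero_le _)
        (Finset.mem_univ i)
      have : (v i).natAbs = 0 := by omega
      simpa using this
    simp [this]
  | succ N ih =>
    intro v hv
    by_cases h : ∃ i j, i ≠ j ∧ v i ≠ 0 ∧ v j ≠ 0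
    · -- two nonzero entries
      obtain ⟨i, j, hij, hi, hj, hle⟩ : ∃ i j, i ≠ j ∧ v i ≠ 0 ∧ v j ≠ 0 ∧
          (v j).natAbs ≤ (v i).natAbs := by
        obtain ⟨i, j, hij, hi, hj⟩ := h
        rcases le_total (v j).natAbs (v i).natAbs with h | h
        · exact ⟨i, j, hij, hi, hj, h⟩
        · exact ⟨j, i, hij.symm, hj, hi, h⟩
      obtain ⟨c, hc⟩ : ∃ c : ℤ, (v i + c * v j).natAbs < (v i).natAbs := by
        rcases lt_or_gt_of_ne hi with hi' | hi' <;> rcases lt_or_gt_of_ne hj with hj' | hj'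
        · exact ⟨-1, by omega⟩
        · exact ⟨1, by omega⟩
        · exact ⟨1, by omega⟩
        · exact ⟨-1, by omega⟩
      have hlt : (∑ k, (((tv i j hij c : Matrix (Fin (n + 1)) (Fin (n + 1)) ℤ) *ᵥ v) k).natAbs) <
          ∑ k, (v k).natAbs := by
        refine Finset.sum_lt_sum (fun k _ => ?_) ⟨i, Finset.mem_univ _, ?_⟩
        · rw [tv_mulVec]
          by_cases hk : k = i
          · subst hk; simp only [if_true]; exact hc.le
          · simp [hk]
        · rw [tv_mulVec]; simpa using hc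
      obtain ⟨γ, d, hγ⟩ := ih ((tv i j hij c : Matrix (Fin (n + 1)) (Fin (n + 1)) ℤ) *ᵥ v) (by omega)
      refine ⟨(tv i j hij c)⁻¹ * γ, d, ?_⟩
      rw [Matrix.SpecialLinearGroup.coe_mul, ← Matrix.mulVec_mulVec, ← hγ, Matrix.mulVec_mulVec,
        ← Matrix.SpecialLinearGroup.coe_mul, inv_mul_cancel]
      simp
    · push Not at h
      by_cases h0 : v = 0
      · exact ⟨1, 0, by simp [h0]⟩
      obtain ⟨i, hi⟩ : ∃ i, v i ≠ 0 := by
        by_contra hc
        push Not at hc
        exact h0 (funext hc)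
      have hv' : v = Pi.single i (v i) := by
        funext k
        by_cases hk : k = i
        · subst hk; simp
        · rw [Pi.single_eq_of_ne hk]
          exact h i k (Ne.symm hk) hi
      by_cases hi0 : i = 0
      · subst hi0
        refine ⟨1, v 0, ?_⟩
        rw [Matrix.SpecialLinearGroup.coe_one, Matrix.one_mulVec]
        exact hv'
      · refine ⟨tv 0 i (Ne.symm hi0) (-1) * tv i 0 hi0 1, v i, ?_⟩
        rw [Matrix.SpecialLinearGroup.coe_mul, ← Matrix.mulVec_mulVec, tv_mulVec, tv_mulVec]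
        generalize v i = c at hv'
        rw [hv']
        funext k
        by_cases hk : k = i
        · subst hk; simp [hi0]
        · by_cases hk0 : k = 0
          · subst hk0; simp [Ne.symm hi0, hi0]
          · simp [hk, hk0]

theorem exists_col' {n : ℕ} (v : Fin (n + 1) → ℤ) :
    ∃ (γ : SpecialLinearGroup (Fin (n + 1)) ℤ) (d : ℤ), ∀ i, v i = γ i 0 * d := by
  obtain ⟨γ, d, h⟩ := exists_col _ v le_rfl
  refine ⟨γ, d, fun i => ?_⟩
  rw [h]
  simp [Matrix.mulVec_single, mul_comm]

end Vale.Agent.P092.H670
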