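import Mathlib

/-!
P092 (helper670): finite covolume of `SL_n(ℤ)` in `SL_n(ℝ)`.  Part 4: from a bi-invariant measure, a Borel
section and a set of finite measure meeting every coset to an invariant probability on the quotient.
-/

open MeasureTheory Set Pointwise

namespace Vale.Agent.P092.H670

section
variable {G : Type*} [Group G] [TopologicalSpace G] [IsTopologicalGroup G] [T2Space G]
  [SecondCountableTopology G] [MeasurableSpace G] [BorelSpace G]

theorem exists_prob_of_section (Γ : Subgroup G) [Countable Γ] [MeasurableSpace (G ⧸ Γ)]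
    [BorelSpace (G ⧸ Γ)] (m : Measure G) [m.IsMulLeftInvariant] [m.IsMulRightInvariant]
    (σ : G ⧸ Γ → G) (hσ : Measurable σ) (hσ' : ∀ x, (σ x : G ⧸ Γ) = x)
    (hfin : ∀ F : Set G, MeasurableSet F → (∀ x ∈ F, ∀ γ ∈ Γ, x * γ ∈ F → γ = 1) → m F < ⊤)
    (hm : m ≠ 0) :
    ∃ ν : Measure (G ⧸ Γ), IsProbabilityMeasure ν ∧ ∀ g : G, ν.map (fun x => g • x) = ν := by
  have hmk : Measurable (QuotientGroup.mk : G → G ⧸ Γ) := continuous_quotient_mk'.measurable
  set F : Set G := {g | σ (g : G ⧸ Γ) = g} with hF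
  have hFm : MeasurableSet F := measurableSet_eq_fun (hσ.comp hmk) measurable_id
  have hfund : IsFundamentalDomain Γ.op F m := by
    refine IsFundamentalDomain.mk' hFm.nullMeasurableSet (fun x => ?_)
    have hx : x⁻¹ * σ (x : G ⧸ Γ) ∈ Γ := by
      rw [← QuotientGroup.eq]
      exact (hσ' _).symm
    refine ⟨⟨MulOpposite.op (x⁻¹ * σ (x : G ⧸ Γ)), by simpa using hx⟩, ?_, ?_⟩
    · show x * (x⁻¹ * σ (x : G ⧸ Γ)) ∈ F
      rw [mul_inv_cancel_left]
      show σ ((σ (x : G ⧸ Γ) : G) : G ⧸ Γ) = σ (x : G ⧸ Γ)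
      rw [hσ']
    · rintro ⟨γ, hγ⟩ h
      apply Subtype.ext
      have hγ' : γ.unop ∈ Γ := by simpa using hγ
      have h1 : σ ((x * γ.unop : G) : G ⧸ Γ) = x * γ.unop := h
      have h2 : ((x * γ.unop : G) : G ⧸ Γ) = (x : G ⧸ Γ) := QuotientGroup.mk_mul_of_mem x hγ'
      rw [h2] at h1
      show γ = MulOpposite.op (x⁻¹ * σ (x : G ⧸ Γ))
      rw [h1, inv_mul_cancel_left, MulOpposite.op_unop]
  have hFt : m F ≠ ⊤ := by
    refine (hfin F hFm (fun x hx γ hγ h => ?_)).ne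
    have h1 : σ (x : G ⧸ Γ) = x := hx
    have h3 : σ ((x * γ : G) : G ⧸ Γ) = x * γ := h
    rw [QuotientGroup.mk_mul_of_mem x hγ, h1] at h3
    exact (mul_eq_left.1 h3.symm)
  have hF0 : m F ≠ 0 := hfund.measure_ne_zero hm
  set ν0 : Measure (G ⧸ Γ) := (m.restrict F).map (QuotientGroup.mk : G → G ⧸ Γ) with hν0
  have hν0_apply : ∀ A : Set (G ⧸ Γ), MeasurableSet A →
      ν0 A = m ((QuotientGroup.mk : G → G ⧸ Γ) ⁻¹' A ∩ F) := by
    intro A hA
    rw [hν0, Measure.map_apply hmk hA, Measure.restrict_apply (hmk hA)]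
  have huniv : ν0 univ = m F := by
    rw [hν0_apply _ MeasurableSet.univ, preimage_univ, univ_inter]
  have hinv : ∀ g : G, ν0.map (fun x => g • x) = ν0 := by
    intro g
    ext A hA
    have hgm : Measurable (fun x : G ⧸ Γ => g • x) := measurable_const_smul g
    rw [Measure.map_apply hgm hA, hν0_apply _ (hgm hA), hν0_apply _ hA]
    set B : Set G := (QuotientGroup.mk : G → G ⧸ Γ) ⁻¹' A with hB
    have e1 : (QuotientGroup.mk : G → G ⧸ Γ) ⁻¹' ((fun x : G ⧸ Γ => g • x) ⁻¹' A) =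
        (g * ·) ⁻¹' B := rfl
    have e2 : (g * ·) ⁻¹' B ∩ F = (g * ·) ⁻¹' (B ∩ g • F) := by
      ext x
      simp only [mem_inter_iff, mem_preimage, and_congr_right_iff]
      intro _
      rw [← smul_eq_mul, Set.smul_mem_smul_set_iff]
    rw [e1, e2, measure_preimage_mul]
    have hg : IsFundamentalDomain Γ.op (g • F) m := hfund.smul_of_comm g
    refine hg.measure_set_eq hfund (hmk hA) (fun γ => ?_)
    ext x
    have hγ' : (γ : Gᵐᵒᵖ).unop ∈ Γ := γ.2
    have h2 : ((x * (γ : Gᵐᵒᵖ).unop : G) : G ⧸ Γ) = (x : G ⧸ Γ) :=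
      QuotientGroup.mk_mul_of_mem x hγ'
    show ((x * (γ : Gᵐᵒᵖ).unop : G) : G ⧸ Γ) ∈ A ↔ (x : G ⧸ Γ) ∈ A
    rw [h2]
  refine ⟨(ν0 univ)⁻¹ • ν0, ⟨?_⟩, fun g => ?_⟩
  · rw [Measure.smul_apply, smul_eq_mul, huniv]
    exact ENNReal.inv_mul_cancel hF0 hFt
  · rw [Measure.map_smul, hinv]

end

end Vale.Agent.P092.H670
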