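import Vale.Agent.P092.H670.Lin
import Vale.Agent.P092.H670.Quot
import Vale.Agent.P092.H670.Inst

/-!
P092 (helper670): finite covolume of `SL_n(ℤ)` in `SL_n(ℝ)`.  Part 6: the bi-invariant measure of
`SL_n(ℝ)` obtained from Lebesgue measure on the cone `{0 < det ≤ 1}`.
-/

open MeasureTheory Matrix Set Topology

namespace Vale.Agent.P092.H670

/-- Left multiplication, matrices being given by rows. -/
def lr {n : ℕ} (A : Matrix (Fin n) (Fin n) ℝ) (X : V n) : V n := fun i j => (A * Matrix.of X) i j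

/-- Right multiplication, matrices being given by rows. -/
def rr {n : ℕ} (B : Matrix (Fin n) (Fin n) ℝ) (X : V n) : V n := fun i j => (Matrix.of X * B) i j

lemma of_lr {n : ℕ} (A : Matrix (Fin n) (Fin n) ℝ) (X : V n) :
    Matrix.of (lr A X) = A * Matrix.of X := rfl

lemma of_rr {n : ℕ} (A : Matrix (Fin n) (Fin n) ℝ) (X : V n) :
    Matrix.of (rr A X) = Matrix.of X * A := rfl

theorem mp_lr {n : ℕ} {A : Matrix (Fin n) (Fin n) ℝ} (hA : |A.det| = 1) :
    MeasurePreserving (lr A) (volume : Measure (V n)) volume :=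
  (mp_tr n).comp ((mp_lm hA).comp (mp_tr n))

theorem mp_rr {n : ℕ} {A : Matrix (Fin n) (Fin n) ℝ} (hA : |A.det| = 1) :
    MeasurePreserving (rr A) (volume : Measure (V n)) volume :=
  (mp_tr n).comp ((mp_rmu hA).comp (mp_tr n))

lemma continuous_det (n : ℕ) : Continuous (fun X : V n => (Matrix.of X).det) := by
  have h : Continuous (fun X : V n => (Matrix.of X)) := continuous_id
  exact h.matrix_det

/-- The cone `0 < det ≤ 1`. -/
def CC (n : ℕ) : Set (V n) := {X | 0 < (Matrix.of X).det ∧ (Matrix.of X).det ≤ 1}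

lemma measurableSet_CC (n : ℕ) : MeasurableSet (CC n) :=
  (measurableSet_lt measurable_const (continuous_det n).measurable).inter
    (measurableSet_le (continuous_det n).measurable measurable_const)

lemma det_scale {n : ℕ} [NeZero n] {X : Matrix (Fin n) (Fin n) ℝ} (h : 0 < X.det) :
    ((X.det ^ (-(1 / (n : ℝ)))) • X).det = 1 := by
  rw [Matrix.det_smul, Fintype.card_fin, ← Real.rpow_natCast, ← Real.rpow_mul h.le]
  have hn : (n : ℝ) ≠ 0 := by exact_mod_cast NeZero.ne n
  have : -(1 / (n : ℝ)) * (n : ℝ) = -1 := by field_simp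
  rw [this, Real.rpow_neg_one, inv_mul_cancel₀ h.ne']

/-- Constructor of `SL_n(ℝ)`. -/
def mkSL {n : ℕ} (A : Matrix (Fin n) (Fin n) ℝ) (h : A.det = 1) :
    Matrix.SpecialLinearGroup (Fin n) ℝ := ⟨A, h⟩

lemma mkSL_ext {n : ℕ} {A B : Matrix (Fin n) (Fin n) ℝ} (hA : A.det = 1) (hB : B.det = 1)
    (h : A = B) : mkSL A hA = mkSL B hB := by subst h; rfl

lemma mkSL_left {n : ℕ} (g : Matrix.SpecialLinearGroup (Fin n) ℝ) {A : Matrix (Fin n) (Fin n) ℝ}
    (hA : A.det = 1) (h : ((g : Matrix (Fin n) (Fin n) ℝ) * A).det = 1) :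
    g * mkSL A hA = mkSL ((g : Matrix (Fin n) (Fin n) ℝ) * A) h := rfl

lemma mkSL_right {n : ℕ} (g : Matrix.SpecialLinearGroup (Fin n) ℝ) {A : Matrix (Fin n) (Fin n) ℝ}
    (hA : A.det = 1) (h : (A * (g : Matrix (Fin n) (Fin n) ℝ)).det = 1) :
    mkSL A hA * g = mkSL (A * (g : Matrix (Fin n) (Fin n) ℝ)) h := rfl

/-- Normalisation of the determinant. -/
noncomputable def pj {n : ℕ} [NeZero n] (X : V n) : Matrix.SpecialLinearGroup (Fin n) ℝ :=
  if h : 0 < (Matrix.of X).det then
    mkSL (((Matrix.of X).det ^ (-(1 / (n : ℝ)))) • Matrix.of X) (det_scale h)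
  else 1

lemma pj_of_pos {n : ℕ} [NeZero n] {X : V n} (h : 0 < (Matrix.of X).det) :
    pj X = mkSL (((Matrix.of X).det ^ (-(1 / (n : ℝ)))) • Matrix.of X) (det_scale h) := dif_pos h

lemma pj_lr {n : ℕ} [NeZero n] {X : V n} (h : 0 < (Matrix.of X).det)
    (g : Matrix.SpecialLinearGroup (Fin n) ℝ) : pj (lr g X) = g * pj X := by
  have h1 : (Matrix.of (lr (g : Matrix (Fin n) (Fin n) ℝ) X)).det = (Matrix.of X).det := by
    rw [of_lr, Matrix.det_mul, g.2, one_mul]
  rw [pj_of_pos h, pj_of_pos (by rw [h1]; exact h)]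
  have h2 := det_scale h
  rw [mkSL_left g h2 (by rw [Matrix.det_mul, h2, g.2, one_mul])]
  refine mkSL_ext _ _ ?_
  rw [h1, of_lr, Matrix.mul_smul]

lemma pj_rr {n : ℕ} [NeZero n] {X : V n} (h : 0 < (Matrix.of X).det)
    (g : Matrix.SpecialLinearGroup (Fin n) ℝ) : pj (rr g X) = pj X * g := by
  have h1 : (Matrix.of (rr (g : Matrix (Fin n) (Fin n) ℝ) X)).det = (Matrix.of X).det := by
    rw [of_rr, Matrix.det_mul, g.2, mul_one]
  rw [pj_of_pos h, pj_of_pos (by rw [h1]; exact h)]
  have h2 := det_scale h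
  rw [mkSL_right g h2 (by rw [Matrix.det_mul, h2, g.2, one_mul])]
  refine mkSL_ext _ _ ?_
  rw [h1, of_rr, Matrix.smul_mul]

/-- Underlying function of an element of `SL_n(ℝ)`. -/
def vv {n : ℕ} (g : Matrix.SpecialLinearGroup (Fin n) ℝ) : V n := fun i j => g i j

lemma isClosedEmbedding_vv (n : ℕ) : IsClosedEmbedding (vv (n := n)) :=
  Matrix.SpecialLinearGroup.isClosedEmbedding_val

section
variable {n : ℕ} [NeZero n] [MeasurableSpace (Matrix.SpecialLinearGroup (Fin n) ℝ)]
  [BorelSpace (Matrix.SpecialLinearGroup (Fin n) ℝ)]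

lemma measurable_pj : Measurable (pj (n := n)) := by
  rw [← (isClosedEmbedding_vv n).measurableEmbedding.measurable_comp_iff]
  have h : (vv ∘ pj (n := n)) = fun X => if 0 < (Matrix.of X).det then
      ((Matrix.of X).det ^ (-(1 / (n : ℝ)))) • X else vv 1 := by
    funext X
    by_cases h : 0 < (Matrix.of X).det
    · rw [Function.comp_apply, pj_of_pos h, if_pos h]
      rfl
    · rw [Function.comp_apply, pj, dif_neg h, if_neg h]
  rw [h]
  refine Measurable.ite (measurableSet_lt measurable_const (continuous_det n).measurable) ?_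
    measurable_const
  exact Measurable.smul ((continuous_det n).measurable.pow_const _) measurable_id

/-- The measure of the cone. -/
noncomputable def mC (n : ℕ) [NeZero n] [MeasurableSpace (Matrix.SpecialLinearGroup (Fin n) ℝ)] :
    Measure (Matrix.SpecialLinearGroup (Fin n) ℝ) := ((volume : Measure (V n)).restrict (CC n)).map pj

omit [NeZero n] [MeasurableSpace (Matrix.SpecialLinearGroup (Fin n) ℝ)]
  [BorelSpace (Matrix.SpecialLinearGroup (Fin n) ℝ)] in
lemma abs_det_one (g : Matrix.SpecialLinearGroup (Fin n) ℝ) :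
    |(g : Matrix (Fin n) (Fin n) ℝ).det| = 1 := by rw [g.2, abs_one]

lemma mC_map {f : Matrix.SpecialLinearGroup (Fin n) ℝ → Matrix.SpecialLinearGroup (Fin n) ℝ}
    (hf : Measurable f) {T : V n → V n} (hT : MeasurePreserving T (volume : Measure (V n)) volume)
    (hTC : T ⁻¹' (CC n) = CC n) (h : ∀ X ∈ CC n, pj (T X) = f (pj X)) :
    (mC n).map f = mC n := by
  rw [mC, Measure.map_map hf measurable_pj]
  have h1 : ((volume : Measure (V n)).restrict (CC n)).map (f ∘ pj) =
      ((volume : Measure (V n)).restrict (CC n)).map (pj ∘ T) := by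
    refine Measure.map_congr ?_
    filter_upwards [ae_restrict_mem (measurableSet_CC n)] with X hX
    exact (h X hX).symm
  rw [h1, ← Measure.map_map measurable_pj hT.measurable]
  congr 1
  have h2 := hT.restrict_preimage (measurableSet_CC n)
  rw [hTC] at h2
  exact h2.map_eq

instance instLeft : (mC n).IsMulLeftInvariant := by
  refine ⟨fun g => ?_⟩
  refine mC_map (measurable_const_mul g) (mp_lr (abs_det_one g)) ?_ (fun X hX => pj_lr hX.1 g)
  ext X
  have h1 : (Matrix.of (lr (g : Matrix (Fin n) (Fin n) ℝ) X)).det = (Matrix.of X).det := by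
    rw [of_lr, Matrix.det_mul, g.2, one_mul]
  show (_ ∧ _) ↔ (_ ∧ _)
  rw [h1]

instance instRight : (mC n).IsMulRightInvariant := by
  refine ⟨fun g => ?_⟩
  refine mC_map (measurable_mul_const g) (mp_rr (abs_det_one g)) ?_ (fun X hX => pj_rr hX.1 g)
  ext X
  have h1 : (Matrix.of (rr (g : Matrix (Fin n) (Fin n) ℝ) X)).det = (Matrix.of X).det := by
    rw [of_rr, Matrix.det_mul, g.2, mul_one]
  show (_ ∧ _) ↔ (_ ∧ _)
  rw [h1]

lemma mC_apply {A : Set (Matrix.SpecialLinearGroup (Fin n) ℝ)} (hA : MeasurableSet A) :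
    mC n A = volume (pj ⁻¹' A ∩ CC n) := by
  rw [mC, Measure.map_apply measurable_pj hA, Measure.restrict_apply (measurable_pj hA)]

lemma mC_ne_zero : mC n ≠ 0 := by
  intro h0
  have h1 : mC n univ = 0 := by rw [h0]; rfl
  rw [mC_apply MeasurableSet.univ, preimage_univ, univ_inter] at h1
  have h2 : IsOpen {X : V n | 0 < (Matrix.of X).det ∧ (Matrix.of X).det < 1} :=
    (isOpen_lt continuous_const (continuous_det n)).inter
      (isOpen_lt (continuous_det n) continuous_const)
  have h3 : ({X : V n | 0 < (Matrix.of X).det ∧ (Matrix.of X).det < 1}).Nonempty := by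
    refine ⟨fun i j => ((1 / 2 : ℝ) • (1 : Matrix (Fin n) (Fin n) ℝ)) i j, ?_⟩
    show 0 < ((1 / 2 : ℝ) • (1 : Matrix (Fin n) (Fin n) ℝ)).det ∧
      ((1 / 2 : ℝ) • (1 : Matrix (Fin n) (Fin n) ℝ)).det < 1
    rw [Matrix.det_smul, Matrix.det_one, mul_one, Fintype.card_fin]
    exact ⟨by positivity, pow_lt_one₀ (by norm_num) (by norm_num) (NeZero.ne n)⟩
  have h4 := h2.measure_pos volume h3
  refine h4.ne' (measure_mono_null ?_ h1)
  intro X hX
  exact ⟨hX.1, hX.2.le⟩

end

end Vale.Agent.P092.H670
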