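import Vale.Agent.P092.H670.Cone
import Vale.Agent.P092.H790.Sec

/-!
P092 (helper670): finite covolume of `SL_n(ℤ)` in `SL_n(ℝ)`.  Part 7: the invariant probability on
`SL_n(ℝ) ⧸ SL_n(ℤ)`, from a set of finite Lebesgue measure meeting every orbit in the cone.
-/

open MeasureTheory Matrix Set Topology

namespace Vale.Agent.P092.H670

/-- A set of matrices of finite measure meets every orbit of `Γ` in the cone. -/
def Fund {n : ℕ} (Γ : Subgroup (Matrix.SpecialLinearGroup (Fin n) ℝ)) : Prop :=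
  ∃ F : Set (Fin n → Fin n → ℝ), MeasurableSet F ∧ MeasureTheory.volume F < ⊤ ∧
    ∀ X : Fin n → Fin n → ℝ, 0 < (Matrix.of X).det → (Matrix.of X).det ≤ 1 →
      ∃ γ ∈ Γ, rr ((γ : Matrix.SpecialLinearGroup (Fin n) ℝ) : Matrix (Fin n) (Fin n) ℝ) X ∈ F

lemma rr_rr {n : ℕ} (g h : Matrix.SpecialLinearGroup (Fin n) ℝ) (X : V n) :
    rr h (rr g X) = rr ((g * h : Matrix.SpecialLinearGroup (Fin n) ℝ) :
      Matrix (Fin n) (Fin n) ℝ) X := by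
  rw [Matrix.SpecialLinearGroup.coe_mul]
  show (fun i j => (Matrix.of (rr g X) * (h : Matrix (Fin n) (Fin n) ℝ)) i j) =
    fun i j => (Matrix.of X * ((g : Matrix (Fin n) (Fin n) ℝ) * (h : Matrix (Fin n) (Fin n) ℝ))) i j
  rw [of_rr, Matrix.mul_assoc]

lemma rr_one {n : ℕ} (X : V n) :
    rr ((1 : Matrix.SpecialLinearGroup (Fin n) ℝ) : Matrix (Fin n) (Fin n) ℝ) X = X := by
  rw [Matrix.SpecialLinearGroup.coe_one]
  show (fun i j => (Matrix.of X * (1 : Matrix (Fin n) (Fin n) ℝ)) i j) = X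
  rw [Matrix.mul_one]
  rfl

lemma det_rr {n : ℕ} (g : Matrix.SpecialLinearGroup (Fin n) ℝ) (X : V n) :
    (Matrix.of (rr (g : Matrix (Fin n) (Fin n) ℝ) X)).det = (Matrix.of X).det := by
  rw [of_rr, Matrix.det_mul, g.2, mul_one]

theorem exists_prob_of_fund {n : ℕ} [NeZero n]
    (Γ : Subgroup (Matrix.SpecialLinearGroup (Fin n) ℝ)) [DiscreteTopology Γ] (hfund : Fund Γ)
    [MeasurableSpace (Matrix.SpecialLinearGroup (Fin n) ℝ ⧸ Γ)]
    [BorelSpace (Matrix.SpecialLinearGroup (Fin n) ℝ ⧸ Γ)] :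
    ∃ ν : Measure (Matrix.SpecialLinearGroup (Fin n) ℝ ⧸ Γ), IsProbabilityMeasure ν ∧
      ∀ g : Matrix.SpecialLinearGroup (Fin n) ℝ, ν.map (fun x => g • x) = ν := by
  have : Countable Γ := TopologicalSpace.separableSpace_iff_countable.1 inferInstance
  let _ : MeasurableSpace (Matrix.SpecialLinearGroup (Fin n) ℝ) := borel _
  have : BorelSpace (Matrix.SpecialLinearGroup (Fin n) ℝ) := ⟨rfl⟩
  obtain ⟨σ, hσ, hσ', -⟩ := H790.exists_section (Γ)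
  refine exists_prob_of_section (Γ) (mC n) σ hσ hσ' ?_ mC_ne_zero
  intro F hF hdisj
  rw [mC_apply hF]
  obtain ⟨Fd, hFd, hvol, hcov⟩ := hfund
  set D : Set (V n) := pj ⁻¹' F ∩ CC n with hD
  have hDm : MeasurableSet D := (measurable_pj hF).inter (measurableSet_CC n)
  have h1 : D ⊆ ⋃ γ : Γ, (rr ((γ : Matrix.SpecialLinearGroup (Fin n) ℝ) :
      Matrix (Fin n) (Fin n) ℝ)) ⁻¹' Fd ∩ D := by
    intro X hX
    obtain ⟨γ, hγ, h⟩ := hcov X hX.2.1 hX.2.2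
    exact mem_iUnion.2 ⟨⟨γ, hγ⟩, h, hX⟩
  have h2 : ∀ γ : Γ, volume ((rr ((γ : Matrix.SpecialLinearGroup (Fin n) ℝ) :
      Matrix (Fin n) (Fin n) ℝ)) ⁻¹' Fd ∩ D) =
      volume (Fd ∩ (rr (((γ⁻¹ : Γ) : Matrix.SpecialLinearGroup (Fin n) ℝ) :
      Matrix (Fin n) (Fin n) ℝ)) ⁻¹' D) := by
    intro γ
    have hmp := mp_rr (abs_det_one (((γ⁻¹ : Γ) : Matrix.SpecialLinearGroup (Fin n) ℝ)))
    have hmp' := mp_rr (abs_det_one ((γ : Matrix.SpecialLinearGroup (Fin n) ℝ)))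
    have hmm := (hmp'.measurable hFd).inter hDm
    rw [← hmp.measure_preimage hmm.nullMeasurableSet]
    congr 1
    ext X
    simp only [mem_preimage, mem_inter_iff]
    rw [rr_rr]
    have : (((γ⁻¹ : Γ) : Matrix.SpecialLinearGroup (Fin n) ℝ) *
        (γ : Matrix.SpecialLinearGroup (Fin n) ℝ)) = 1 := by simp
    rw [this, rr_one]
  have h3 : Pairwise (Function.onFun Disjoint (fun γ : Γ =>
      (Fd ∩ (rr (((γ⁻¹ : Γ) : Matrix.SpecialLinearGroup (Fin n) ℝ) :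
      Matrix (Fin n) (Fin n) ℝ)) ⁻¹' D))) := by
    intro γ γ' hne
    refine Set.disjoint_left.2 (fun X hX hX' => hne ?_)
    have hX1 : rr (((γ⁻¹ : Γ) : Matrix.SpecialLinearGroup (Fin n) ℝ) :
      Matrix (Fin n) (Fin n) ℝ) X ∈ D := hX.2
    have hX2 : rr (((γ'⁻¹ : Γ) : Matrix.SpecialLinearGroup (Fin n) ℝ) :
      Matrix (Fin n) (Fin n) ℝ) X ∈ D := hX'.2
    have e : rr (((γ'⁻¹ : Γ) : Matrix.SpecialLinearGroup (Fin n) ℝ) :
        Matrix (Fin n) (Fin n) ℝ) X =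
        rr (((γ * γ'⁻¹ : Γ) : Matrix.SpecialLinearGroup (Fin n) ℝ) :
        Matrix (Fin n) (Fin n) ℝ) (rr (((γ⁻¹ : Γ) : Matrix.SpecialLinearGroup (Fin n) ℝ) :
      Matrix (Fin n) (Fin n) ℝ) X) := by
      have e0 : ((γ'⁻¹ : Γ) : Matrix.SpecialLinearGroup (Fin n) ℝ) =
          ((γ⁻¹ : Γ) : Matrix.SpecialLinearGroup (Fin n) ℝ) *
          ((γ * γ'⁻¹ : Γ) : Matrix.SpecialLinearGroup (Fin n) ℝ) := by
        rw [← Subgroup.coe_mul, inv_mul_cancel_left]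
      rw [rr_rr, e0]
    have hY := hX2.1
    rw [e, mem_preimage, pj_rr hX1.2.1] at hY
    have h5 := hdisj _ hX1.1 _ (γ * γ'⁻¹ : Γ).2 hY
    have h6 : γ * γ'⁻¹ = 1 := Subtype.ext h5
    exact mul_inv_eq_one.1 h6
  calc volume D ≤ volume (⋃ γ : Γ, (rr ((γ : Matrix.SpecialLinearGroup (Fin n) ℝ) :
      Matrix (Fin n) (Fin n) ℝ)) ⁻¹' Fd ∩ D) := measure_mono h1
    _ ≤ ∑' γ : Γ, volume ((rr ((γ : Matrix.SpecialLinearGroup (Fin n) ℝ) :
      Matrix (Fin n) (Fin n) ℝ)) ⁻¹' Fd ∩ D) := measure_iUnion_le _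
    _ = ∑' γ : Γ, volume (Fd ∩ (rr (((γ⁻¹ : Γ) : Matrix.SpecialLinearGroup (Fin n) ℝ) :
      Matrix (Fin n) (Fin n) ℝ)) ⁻¹' D) := by simp_rw [h2]
    _ = volume (⋃ γ : Γ, Fd ∩ (rr (((γ⁻¹ : Γ) : Matrix.SpecialLinearGroup (Fin n) ℝ) :
      Matrix (Fin n) (Fin n) ℝ)) ⁻¹' D) := by
      rw [measure_iUnion h3]
      intro γ
      have hmp := mp_rr (abs_det_one (((γ⁻¹ : Γ) : Matrix.SpecialLinearGroup (Fin n) ℝ)))
      exact hFd.inter (hmp.measurable hDm)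
    _ ≤ volume Fd := measure_mono (iUnion_subset fun γ => inter_subset_left)
    _ < ⊤ := hvol

/-- Passing to a subgroup of finite index. -/
theorem Fund.of_finiteIndex {n : ℕ} {Γ Γ' : Subgroup (Matrix.SpecialLinearGroup (Fin n) ℝ)}
    (hfund : Fund Γ) (hle : Γ' ≤ Γ) (hfi : Γ'.relIndex Γ ≠ 0) : Fund Γ' := by
  obtain ⟨Fd, hFd, hvol, hcov⟩ := hfund
  have : Finite (Γ ⧸ Γ'.subgroupOf Γ) := by
    have : (Γ'.subgroupOf Γ).FiniteIndex := ⟨hfi⟩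
    infer_instance
  refine ⟨⋃ q : Γ ⧸ Γ'.subgroupOf Γ, (rr ((((Quotient.out q)⁻¹ : Γ) :
    Matrix.SpecialLinearGroup (Fin n) ℝ) : Matrix (Fin n) (Fin n) ℝ)) ⁻¹' Fd,
    MeasurableSet.iUnion (fun q => (mp_rr (abs_det_one _)).measurable hFd), ?_, ?_⟩
  · cases nonempty_fintype (Γ ⧸ Γ'.subgroupOf Γ)
    refine (measure_iUnion_fintype_le _ _).trans_lt ?_
    refine ENNReal.sum_lt_top.2 (fun q _ => ?_)
    rw [(mp_rr (abs_det_one _)).measure_preimage hFd.nullMeasurableSet]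
    exact hvol
  · intro X h0 h1
    obtain ⟨γ, hγ, h⟩ := hcov X h0 h1
    set q : Γ ⧸ Γ'.subgroupOf Γ := (((⟨γ, hγ⟩ : Γ)⁻¹ : Γ) : Γ ⧸ Γ'.subgroupOf Γ) with hq
    have h2 : ((Quotient.out q : Γ) : Γ ⧸ Γ'.subgroupOf Γ) = q := Quotient.out_eq q
    have h3 : ((⟨γ, hγ⟩ : Γ)⁻¹)⁻¹ * Quotient.out q ∈ Γ'.subgroupOf Γ := by
      rw [← QuotientGroup.eq, h2]
    rw [inv_inv, Subgroup.mem_subgroupOf] at h3
    refine ⟨_, h3, mem_iUnion.2 ⟨q, ?_⟩⟩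
    rw [mem_preimage, rr_rr]
    have h4 : (((⟨γ, hγ⟩ : Γ) * Quotient.out q : Γ) : Matrix.SpecialLinearGroup (Fin n) ℝ) *
        (((Quotient.out q)⁻¹ : Γ) : Matrix.SpecialLinearGroup (Fin n) ℝ) = γ := by
      rw [← Subgroup.coe_mul, mul_inv_cancel_right]
    rw [h4]
    exact h

/-- The case `n = 0`. -/
theorem exists_prob_zero (Γ : Subgroup (Matrix.SpecialLinearGroup (Fin 0) ℝ))
    [MeasurableSpace (Matrix.SpecialLinearGroup (Fin 0) ℝ ⧸ Γ)] :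
    ∃ ν : Measure (Matrix.SpecialLinearGroup (Fin 0) ℝ ⧸ Γ), IsProbabilityMeasure ν ∧
      ∀ g : Matrix.SpecialLinearGroup (Fin 0) ℝ, ν.map (fun x => g • x) = ν := by
  have hs : Subsingleton (Matrix.SpecialLinearGroup (Fin 0) ℝ ⧸ Γ) := by
    refine ⟨fun x y => ?_⟩
    obtain ⟨a, rfl⟩ := QuotientGroup.mk_surjective x
    obtain ⟨b, rfl⟩ := QuotientGroup.mk_surjective y
    rw [Subsingleton.elim a b]
  refine ⟨Measure.dirac ((1 : Matrix.SpecialLinearGroup (Fin 0) ℝ) :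
    Matrix.SpecialLinearGroup (Fin 0) ℝ ⧸ Γ), inferInstance, fun g => ?_⟩
  have : (fun x : Matrix.SpecialLinearGroup (Fin 0) ℝ ⧸ Γ => g • x) = id := by
    funext x
    exact Subsingleton.elim _ _
  rw [this, Measure.map_id]

theorem exists_prob_gen {n : ℕ} (Γ : Subgroup (Matrix.SpecialLinearGroup (Fin n) ℝ))
    [DiscreteTopology Γ] (hfund : Fund Γ)
    [MeasurableSpace (Matrix.SpecialLinearGroup (Fin n) ℝ ⧸ Γ)]
    [BorelSpace (Matrix.SpecialLinearGroup (Fin n) ℝ ⧸ Γ)] :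
    ∃ ν : Measure (Matrix.SpecialLinearGroup (Fin n) ℝ ⧸ Γ), IsProbabilityMeasure ν ∧
      ∀ g : Matrix.SpecialLinearGroup (Fin n) ℝ, ν.map (fun x => g • x) = ν := by
  rcases Nat.eq_zero_or_pos n with rfl | hn
  · exact exists_prob_zero Γ
  · have : NeZero n := ⟨hn.ne'⟩
    exact exists_prob_of_fund Γ hfund

end Vale.Agent.P092.H670
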