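import Mathlib

/-!
P092 (helper670): finite covolume of `SL_n(ℤ)` in `SL_n(ℝ)`.  Part 1: Lebesgue measure on the space of
matrices (given by their columns) is invariant under multiplication by matrices of determinant `±1`.
-/

open MeasureTheory Matrix

namespace Vale.Agent.P092.H670

/-- Square matrices, as families of columns. -/
abbrev V (n : ℕ) : Type := Fin n → Fin n → ℝ

/-- The matrix with given columns. -/
def mat {n : ℕ} (X : V n) : Matrix (Fin n) (Fin n) ℝ := fun i j => X j i

/-- The columns of a matrix. -/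
def col {n : ℕ} (A : Matrix (Fin n) (Fin n) ℝ) : V n := fun j i => A i j

@[simp] lemma mat_col {n : ℕ} (A : Matrix (Fin n) (Fin n) ℝ) : mat (col A) = A := rfl
@[simp] lemma col_mat {n : ℕ} (X : V n) : col (mat X) = X := rfl
lemma mat_apply {n : ℕ} (X : V n) (i j) : mat X i j = X j i := rfl
lemma col_apply {n : ℕ} (A : Matrix (Fin n) (Fin n) ℝ) (i j) : col A j i = A i j := rfl

lemma mat_inj {n : ℕ} {X Y : V n} (h : mat X = mat Y) : X = Y := by
  rw [← col_mat X, h, col_mat]

/-- Left multiplication. -/
def lm {n : ℕ} (A : Matrix (Fin n) (Fin n) ℝ) (X : V n) : V n := col (A * mat X)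

/-- Right multiplication. -/
def rmu {n : ℕ} (B : Matrix (Fin n) (Fin n) ℝ) (X : V n) : V n := col (mat X * B)

@[simp] lemma mat_lm {n : ℕ} (A : Matrix (Fin n) (Fin n) ℝ) (X : V n) : mat (lm A X) = A * mat X := rfl
@[simp] lemma mat_rmu {n : ℕ} (A : Matrix (Fin n) (Fin n) ℝ) (X : V n) : mat (rmu A X) = mat X * A := rfl

/-- Transposition. -/
def tr (n : ℕ) : V n →ₗ[ℝ] V n where
  toFun X := fun j i => X i j
  map_add' _ _ := rfl
  map_smul' _ _ := rfl

lemma tr_apply {n : ℕ} (X : V n) (i j) : tr n X j i = X i j := rfl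

lemma tr_comp (n : ℕ) : tr n ∘ₗ tr n = LinearMap.id := rfl

lemma det_tr (n : ℕ) : |LinearMap.det (tr n)| = 1 := by
  have h : LinearMap.det (tr n) * LinearMap.det (tr n) = 1 := by
    rw [← LinearMap.det_comp, tr_comp, LinearMap.det_id]
  rcases mul_self_eq_one_iff.1 h with h | h <;> simp [h]

theorem mp_tr (n : ℕ) : MeasurePreserving (tr n) (volume : Measure (V n)) volume := by
  refine ⟨(LinearMap.continuous_of_finiteDimensional (tr n)).measurable, ?_⟩
  have h0 : LinearMap.det (tr n) ≠ 0 := by
    intro h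
    have := det_tr n
    rw [h] at this
    simp at this
  rw [Measure.map_linearMap_addHaar_eq_smul_addHaar volume h0, abs_inv, det_tr]
  simp

theorem mp_lm {n : ℕ} {A : Matrix (Fin n) (Fin n) ℝ} (hA : |A.det| = 1) :
    MeasurePreserving (lm A) (volume : Measure (V n)) volume := by
  have h0 : A.det ≠ 0 := by
    intro h
    rw [h] at hA
    simp at hA
  have h1 : MeasurePreserving (Matrix.toLin' A) (volume : Measure (Fin n → ℝ)) volume := by
    refine ⟨(LinearMap.continuous_of_finiteDimensional _).measurable, ?_⟩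
    rw [Real.map_matrix_volume_pi_eq_smul_volume_pi h0, abs_inv, hA]
    simp
  have h2 := volume_preserving_pi (fun _ : Fin n => h1)
  have h3 : (fun (a : Fin n → Fin n → ℝ) (i : Fin n) => Matrix.toLin' A (a i)) = lm A := by
    funext X j i
    simp [lm, col, Matrix.mul_apply, mat, Matrix.mulVec, dotProduct]
  rw [h3] at h2
  exact h2

lemma rmu_eq {n : ℕ} (B : Matrix (Fin n) (Fin n) ℝ) : rmu B = tr n ∘ lm Bᵀ ∘ tr n := by
  funext X j i
  simp [rmu, lm, col, tr, Matrix.mul_apply, mat, mul_comm]

theorem mp_rmu {n : ℕ} {A : Matrix (Fin n) (Fin n) ℝ} (hA : |A.det| = 1) :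
    MeasurePreserving (rmu A) (volume : Measure (V n)) volume := by
  rw [rmu_eq]
  exact (mp_tr n).comp ((mp_lm (by rwa [Matrix.det_transpose])).comp (mp_tr n))

lemma continuous_mat_det (n : ℕ) : Continuous (fun X : V n => (mat X).det) := by
  have h : Continuous (fun X : V n => (mat X)) :=
    continuous_matrix (fun i j => (continuous_apply i).comp (continuous_apply j))
  exact h.matrix_det

end Vale.Agent.P092.H670
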