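import Mathlib

/-!
P092 (helper670): finite covolume of `SL_n(ℤ)` in `SL_n(ℝ)`.  Part 3: a matrix of small determinant maps
a nonzero integer vector into a fixed box (Minkowski).
-/

open MeasureTheory Matrix Set

namespace Vale.Agent.P092.H670

theorem mink {n : ℕ} (A : Matrix (Fin (n + 1)) (Fin (n + 1)) ℝ) (h0 : A.det ≠ 0)
    (h1 : |A.det| ≤ 1) :
    ∃ v : Fin (n + 1) → ℤ, v ≠ 0 ∧ ∀ i, |(A *ᵥ (fun j => (v j : ℝ))) i| ≤ 2 := by
  set b := Pi.basisFun ℝ (Fin (n + 1)) with hb
  set L := (Submodule.span ℤ (Set.range b)).toAddSubgroup with hL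
  have hfund : IsAddFundamentalDomain L (ZSpan.fundamentalDomain b) volume :=
    ZSpan.isAddFundamentalDomain' b volume
  have hvol : volume (ZSpan.fundamentalDomain b) = 1 := by
    rw [hb, ZSpan.fundamentalDomain_pi_basisFun, volume_pi, Measure.pi_pi]
    simp
  set s : Set (Fin (n + 1) → ℝ) := Matrix.toLin' A ⁻¹' (Set.pi univ fun _ => Icc (-2) 2) with hs
  have hsymm : ∀ x ∈ s, -x ∈ s := by
    intro x hx
    simp only [hs, mem_preimage, mem_pi, mem_univ, forall_true_left, mem_Icc, map_neg,
      Pi.neg_apply] at hx ⊢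
    intro i
    have := hx i
    constructor <;> linarith [this.1, this.2]
  have hconv : Convex ℝ s := by
    refine Convex.linear_preimage ?_ _
    exact convex_pi (fun i _ => convex_Icc _ _)
  have hmeas : volume (ZSpan.fundamentalDomain b) * 2 ^ Module.finrank ℝ (Fin (n + 1) → ℝ) <
      volume s := by
    have h2 : volume s = ENNReal.ofReal |(LinearMap.det (Matrix.toLin' A))⁻¹| *
        volume (Set.pi univ fun _ : Fin (n + 1) => Icc (-2 : ℝ) 2) :=
      Measure.addHaar_preimage_linearMap volume (by simpa using h0) _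
    rw [h2, hvol, one_mul, volume_pi, Measure.pi_pi]
    simp only [LinearMap.det_toLin', Real.volume_Icc, Finset.prod_const, Finset.card_univ,
      Fintype.card_fin, Module.finrank_fintype_fun_eq_card]
    have h3 : (1 : ENNReal) ≤ ENNReal.ofReal |(A.det)⁻¹| := by
      rw [← ENNReal.ofReal_one]
      refine ENNReal.ofReal_le_ofReal ?_
      rw [abs_inv]
      exact (one_le_inv₀ (abs_pos.2 h0)).2 h1
    have h4 : (2 : ENNReal) ^ (n + 1) < ENNReal.ofReal (2 - -2) ^ (n + 1) := by
      have : (2 : ENNReal) = ENNReal.ofReal 2 := by simp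
      rw [this, ← ENNReal.ofReal_pow (by norm_num), ← ENNReal.ofReal_pow (by norm_num)]
      refine (ENNReal.ofReal_lt_ofReal_iff (by positivity)).2 ?_
      exact pow_lt_pow_left₀ (by norm_num) (by norm_num) (by omega)
    calc (2 : ENNReal) ^ (n + 1) < ENNReal.ofReal (2 - -2) ^ (n + 1) := h4
      _ = 1 * ENNReal.ofReal (2 - -2) ^ (n + 1) := (one_mul _).symm
      _ ≤ _ := mul_le_mul_left h3 _
  haveI : Countable L := inferInstanceAs (Countable (Submodule.span ℤ (Set.range b)))
  obtain ⟨x, hx0, hx⟩ := exists_ne_zero_mem_lattice_of_measure_mul_two_pow_lt_measure hfund hsymm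
    hconv hmeas
  have hmem : (x : Fin (n + 1) → ℝ) ∈ Submodule.span ℤ (Set.range b) := x.2
  rw [Module.Basis.mem_span_iff_repr_mem ℤ] at hmem
  choose v hv using hmem
  have hv' : ∀ i, (v i : ℝ) = (x : Fin (n + 1) → ℝ) i := by
    intro i
    have := hv i
    simpa [hb] using this
  refine ⟨v, ?_, ?_⟩
  · intro h
    apply hx0
    apply Subtype.ext
    funext i
    rw [← hv' i, h]
    simp
  · intro i
    have h5 : (fun j => (v j : ℝ)) = (x : Fin (n + 1) → ℝ) := funext hv'
    rw [h5]
    have := hx i (mem_univ i)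
    rw [Matrix.toLin'_apply] at this
    exact abs_le.2 this

end Vale.Agent.P092.H670
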