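import Mathlib

/-!
P092 (helper670), row CLASS-H, part 1: hermitian and skew-hermitian forms over a quaternion division
algebra. `HS k D V G`: `G` is the group of all isometries of the form `h` on the left vector space `V`
over `D`. Transvections, reflections, hyperbolic pairs.
-/

set_option linter.all false

namespace Vale.Agent.P092.H670.Qn

/-- `D` is a quaternion division algebra over `k` with its standard involution `star`. -/
structure QD (k D : Type*) [Field k] [DivisionRing D] [StarRing D] [Algebra k D] : Prop where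
  two : (2 : k) ≠ 0
  stk : ∀ c : k, star (algebraMap k D c) = algebraMap k D c
  sym : ∀ a : D, star a = a → ∃ c : k, a = algebraMap k D c
  pure : ∀ x : D, ∃ b : D, b ≠ 0 ∧ star b = -b ∧ star (x * b) = -(x * b)

namespace QD

variable {k D : Type*} [Field k] [DivisionRing D] [StarRing D] [Algebra k D]

theorem two' (q : QD k D) : (2 : D) ≠ 0 := by
  have h : algebraMap k D 2 ≠ 0 := by
    rw [Ne, map_eq_zero_iff _ (FaithfulSMul.algebraMap_injective k D)]
    exact q.two
  rwa [map_ofNat] at h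

/-- the involution is inner-conjugate to the identity on every element -/
theorem conj (q : QD k D) (x : D) : ∃ s : D, s ≠ 0 ∧ s * star x = x * s := by
  obtain ⟨b, hb0, hb, hx⟩ := q.pure x
  refine ⟨b, hb0, ?_⟩
  rw [star_mul, hb, neg_mul, neg_inj] at hx
  exact hx

theorem not_comm (q : QD k D) {x : D} (h : ∀ a, a * x = x * star a) : x = 0 := by
  by_contra hx
  obtain ⟨b, hb0, hb, -⟩ := q.pure 1
  obtain ⟨c, hc0, hc, hbc⟩ := q.pure b
  have h1 : star (b * c) = star b * star c := by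
    have e1 := h (b * c)
    rw [mul_assoc, h c, ← mul_assoc, h b, mul_assoc] at e1
    exact (mul_left_cancel₀ hx e1).symm
  rw [hbc, hb, hc, neg_mul_neg] at h1
  have h2 : (2 : D) * (b * c) = 0 := by
    rw [two_mul]
    nth_rewrite 2 [← h1]
    rw [add_neg_cancel]
  rcases mul_eq_zero.1 h2 with h3 | h3
  · exact q.two' h3
  · rcases mul_eq_zero.1 h3 with h4 | h4
    · exact hb0 h4
    · exact hc0 h4

/-- half -/
theorem half (q : QD k D) (x : D) : ∃ y : D, y + y = x ∧ (star x = x → star y = y) ∧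
    (star x = -x → star y = -y) := by
  refine ⟨2⁻¹ * x, ?_, fun hx => ?_, fun hx => ?_⟩
  · rw [← two_mul, ← mul_assoc, mul_inv_cancel₀ q.two', one_mul]
  · rw [star_mul, hx, star_inv₀, star_ofNat]
    have : Commute x (2 : D) := (Commute.ofNat_right x 2)
    exact (this.inv_right₀).eq
  · rw [star_mul, hx, star_inv₀, star_ofNat, neg_mul]
    have : Commute x (2 : D) := (Commute.ofNat_right x 2)
    rw [(this.inv_right₀).eq]

end QD

/-- `G` is the group of all isometries of the `ε`-hermitian form `h`. -/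
structure HS (k D V G : Type*) [Field k] [DivisionRing D] [StarRing D] [Algebra k D]
    [AddCommGroup V] [Module D V] [Group G] where
  qd : QD k D
  h : V → V → D
  ρ : G →* Module.End D V
  ε : D
  hε : ε = 1 ∨ ε = -1
  add : ∀ x y z, h (x + y) z = h x z + h y z
  smul : ∀ (a : D) x y, h (a • x) y = a * h x y
  herm : ∀ x y, star (h x y) = ε * h y x
  nd : ∀ x, x ≠ 0 → ∃ y, h x y ≠ 0
  inj : ∀ g g', (∀ x, ρ g x = ρ g' x) → g = g'
  iso : ∀ g x y, h (ρ g x) (ρ g y) = h x y
  full : ∀ A : V →ₗ[D] V, (∀ x y, h (A x) (A y) = h x y) → ∃ g, ∀ x, ρ g x = A x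
  ex : ∃ e, e ≠ 0 ∧ h e e = 0
  rk : ε = -1 → (∀ x : D, ∃ r : k, algebraMap k D r * algebraMap k D r = x * star x) ∧
    ∃ e f e' f', h e e = 0 ∧ h f f = 0 ∧ h e f = 1 ∧ h e' e' = 0 ∧ h f' f' = 0 ∧ h e' f' = 1 ∧
      h e e' = 0 ∧ h e f' = 0 ∧ h f e' = 0 ∧ h f f' = 0

variable {k D V G : Type*} [Field k] [DivisionRing D] [StarRing D] [Algebra k D]
  [AddCommGroup V] [Module D V] [Group G] (S : HS k D V G)

namespace HS

theorem εc (x : D) : S.ε * x = x * S.ε := by
  rcases S.hε with h | h <;> rw [h]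
  · rw [one_mul, mul_one]
  · rw [neg_one_mul, mul_neg_one]

theorem εε : S.ε * S.ε = 1 := by
  rcases S.hε with h | h <;> rw [h]
  · rw [mul_one]
  · rw [neg_one_mul, neg_neg]

theorem ε0 : S.ε ≠ 0 := by
  intro h
  have := S.εε
  rw [h, mul_zero] at this
  exact zero_ne_one this

theorem sε : star S.ε = S.ε := by
  rcases S.hε with h | h <;> rw [h]
  · rw [star_one]
  · rw [star_neg, star_one]

theorem εi : S.ε⁻¹ = S.ε := inv_eq_of_mul_eq_one_right S.εε

theorem εε' (x : D) : S.ε * (S.ε * x) = x := by rw [← mul_assoc, S.εε, one_mul]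

theorem herm' (x y : V) : S.h x y = S.ε * star (S.h y x) := by
  rw [S.herm, S.εε']

theorem zero (y : V) : S.h 0 y = 0 := by
  have := S.smul 0 0 y
  rwa [zero_smul, zero_mul] at this

theorem neg (x y : V) : S.h (-x) y = -S.h x y := by
  have := S.smul (-1) x y
  rwa [neg_smul, one_smul, neg_one_mul] at this

theorem sub (x y z : V) : S.h (x - y) z = S.h x z - S.h y z := by
  rw [sub_eq_add_neg, S.add, S.neg, sub_eq_add_neg]

theorem addr (x y z : V) : S.h x (y + z) = S.h x y + S.h x z := by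
  rw [S.herm' x, S.add, star_add, mul_add, ← S.herm', ← S.herm']

theorem smulr (a : D) (x y : V) : S.h x (a • y) = S.h x y * star a := by
  rw [S.herm' x, S.smul, star_mul, ← mul_assoc, ← S.herm']

theorem zeror (x : V) : S.h x 0 = 0 := by
  rw [S.herm', S.zero, star_zero, mul_zero]

theorem negr (x y : V) : S.h x (-y) = -S.h x y := by
  rw [S.herm' x, S.neg, star_neg, mul_neg, ← S.herm']

theorem subr (x y z : V) : S.h x (y - z) = S.h x y - S.h x z := by
  rw [sub_eq_add_neg, S.addr, S.negr, sub_eq_add_neg]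

theorem flip {x y : V} (h : S.h x y = 0) : S.h y x = 0 := by
  rw [S.herm', h, star_zero, mul_zero]

theorem mul_apply (g h : G) (x : V) : S.ρ (g * h) x = S.ρ g (S.ρ h x) := by
  rw [map_mul]; rfl

theorem one_apply (x : V) : S.ρ 1 x = x := by
  rw [map_one]; rfl

theorem inv_apply (g : G) (x : V) : S.ρ g⁻¹ (S.ρ g x) = x := by
  rw [← S.mul_apply, inv_mul_cancel, S.one_apply]

theorem apply_inv (g : G) (x : V) : S.ρ g (S.ρ g⁻¹ x) = x := by
  rw [← S.mul_apply, mul_inv_cancel, S.one_apply]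

theorem apply_ne (g : G) {x : V} (hx : x ≠ 0) : S.ρ g x ≠ 0 := fun h => hx (by
  rw [← S.inv_apply g x, h, map_zero])

theorem iso_right (g : G) (x y : V) : S.h x (S.ρ g y) = S.h (S.ρ g⁻¹ x) y := by
  rw [← S.iso g (S.ρ g⁻¹ x) y, S.apply_inv]

theorem iso_left (g : G) (x y : V) : S.h (S.ρ g x) y = S.h x (S.ρ g⁻¹ y) := by
  rw [← S.iso g x (S.ρ g⁻¹ y), S.apply_inv]

theorem eq_zero_of (x : V) (h : ∀ y, S.h x y = 0) : x = 0 := by
  by_contra hx
  obtain ⟨y, hy⟩ := S.nd x hx
  exact hy (h y)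

theorem nd1 {x : V} (hx : x ≠ 0) : ∃ y, S.h x y = 1 := by
  obtain ⟨y, hy⟩ := S.nd x hx
  refine ⟨star (S.h x y)⁻¹ • y, ?_⟩
  rw [S.smulr, star_star, mul_inv_cancel₀ hy]

/-- The parameters of the transvections. -/
def Lam (a : D) : Prop := a + S.ε * star a = 0

theorem Lam.star_eq {S : HS k D V G} {a : D} (ha : S.Lam a) : star a = -(S.ε * a) := by
  have h1 : S.ε * (a + S.ε * star a) = 0 := by rw [show a + S.ε * star a = 0 from ha, mul_zero]
  rw [mul_add, S.εε'] at h1
  exact eq_neg_of_add_eq_zero_right h1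

theorem Lam.of_star {S : HS k D V G} {a : D} (ha : star a = -(S.ε * a)) : S.Lam a := by
  show a + S.ε * star a = 0
  rw [ha, mul_neg, S.εε', add_neg_cancel]

theorem Lam.neg {S : HS k D V G} {a : D} (ha : S.Lam a) : S.Lam (-a) := by
  refine Lam.of_star ?_
  rw [star_neg, ha.star_eq, mul_neg]

theorem Lam.add {S : HS k D V G} {a b : D} (ha : S.Lam a) (hb : S.Lam b) : S.Lam (a + b) := by
  refine Lam.of_star ?_
  rw [star_add, ha.star_eq, hb.star_eq, mul_add, neg_add]

theorem Lam.zero {S : HS k D V G} : S.Lam 0 := by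
  refine Lam.of_star ?_
  rw [star_zero, mul_zero, neg_zero]

theorem Lam.inv {S : HS k D V G} {a : D} (ha : S.Lam a) : S.Lam a⁻¹ := by
  by_cases h0 : a = 0
  · rw [h0, inv_zero]; exact Lam.zero
  refine Lam.of_star ?_
  rw [star_inv₀, ha.star_eq, inv_neg, neg_inj, mul_inv_rev, S.εi, S.εc]

theorem Lam.conj {S : HS k D V G} {a : D} (ha : S.Lam a) (c : D) : S.Lam (star c * a * c) := by
  refine Lam.of_star ?_
  rw [star_mul, star_mul, star_star, ha.star_eq, neg_mul, mul_neg, ← mul_assoc, ← mul_assoc,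
    ← S.εc (star c)]
  simp only [mul_assoc]

theorem Lam.eps {S : HS k D V G} {a : D} (ha : S.Lam a) : S.Lam (S.ε * a) := by
  refine Lam.of_star ?_
  rw [star_mul, ha.star_eq, S.sε, neg_mul, S.εε', mul_assoc, ← S.εc a, S.εε']

theorem Lam.kmul {S : HS k D V G} {a : D} (ha : S.Lam a) (t : k) :
    S.Lam (algebraMap k D t * a) := by
  refine Lam.of_star ?_
  rw [star_mul, ha.star_eq, S.qd.stk, neg_mul, mul_assoc, ← Algebra.commutes]

theorem lam_exists : ∃ a, a ≠ 0 ∧ S.Lam a := by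
  rcases S.hε with h | h
  · obtain ⟨b, hb0, hb, -⟩ := S.qd.pure 1
    exact ⟨b, hb0, Lam.of_star (by rw [h, one_mul, hb])⟩
  · exact ⟨1, one_ne_zero, Lam.of_star (by rw [h, star_one, mul_one, neg_neg])⟩

open Classical in
/-- The isometry `x ↦ x + h(x,u) a u`. -/
noncomputable def R (u : V) (a : D) : G :=
  if H : ∃ g : G, ∀ x, S.ρ g x = x + (S.h x u * a) • u then H.choose else 1

/-- the linear map -/
def rmap (u : V) (a : D) : V →ₗ[D] V where
  toFun x := x + (S.h x u * a) • u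
  map_add' x y := by rw [S.add, add_mul, add_smul]; abel
  map_smul' c x := by
    rw [RingHom.id_apply, S.smul, smul_add, smul_smul, mul_assoc]

theorem R_spec {u : V} {a : D} (h : a + S.ε * star a + S.ε * a * S.h u u * star a = 0) (x : V) :
    S.ρ (S.R u a) x = x + (S.h x u * a) • u := by
  have H : ∃ g : G, ∀ x, S.ρ g x = x + (S.h x u * a) • u := by
    obtain ⟨g, hg⟩ := S.full (S.rmap u a) (fun x y => by
      show S.h (x + (S.h x u * a) • u) (y + (S.h y u * a) • u) = S.h x y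
      rw [S.add, S.addr, S.addr, S.smul, S.smul, S.smulr, S.smulr, star_mul, S.herm y u]
      have e : S.h x u * (a + S.ε * star a + S.ε * a * S.h u u * star a) * S.h u y = 0 := by
        rw [h, mul_zero, zero_mul]
      have e2 : S.h x u * (a + S.ε * star a + S.ε * a * S.h u u * star a) * S.h u y =
        S.h x u * (star a * (S.ε * S.h u y)) + (S.h x u * a * S.h u y +
          S.h x u * a * (S.h u u * (star a * (S.ε * S.h u y)))) := by
        rw [← mul_assoc (star a) S.ε, ← S.εc (star a), mul_assoc S.ε a, mul_assoc S.ε,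
          S.εc (a * S.h u u * star a)]
        simp only [mul_add, add_mul, mul_assoc]
        rw [← mul_assoc (star a) S.ε, ← S.εc (star a)]
        simp only [mul_assoc]
        abel
      rw [e2] at e
      rw [add_assoc, e, add_zero])
    exact ⟨g, hg⟩
  unfold R
  rw [dif_pos H]
  exact H.choose_spec x

/-- transvections -/
theorem T_spec {u : V} {a : D} (hu : S.h u u = 0) (ha : S.Lam a) (x : V) :
    S.ρ (S.R u a) x = x + (S.h x u * a) • u := by
  refine S.R_spec ?_ x
  rw [hu, mul_zero, zero_mul, add_zero]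
  exact ha

theorem T_add {u : V} {a b : D} (hu : S.h u u = 0) (ha : S.Lam a) (hb : S.Lam b) :
    S.R u a * S.R u b = S.R u (a + b) := by
  refine S.inj _ _ fun x => ?_
  rw [S.mul_apply, S.T_spec hu hb, S.T_spec hu ha, S.T_spec hu (ha.add hb), S.add, S.smul, hu,
    mul_zero, add_zero, mul_add, add_smul]
  abel

theorem T_zero (u : V) : S.R u 0 = 1 := by
  refine S.inj _ _ fun x => ?_
  rw [S.R_spec (by rw [star_zero, mul_zero, mul_zero, add_zero, zero_add]) x, mul_zero, zero_smul, add_zero, S.one_apply]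

theorem T_inv {u : V} {a : D} (hu : S.h u u = 0) (ha : S.Lam a) : (S.R u a)⁻¹ = S.R u (-a) := by
  rw [inv_eq_iff_mul_eq_one, S.T_add hu ha ha.neg, add_neg_cancel, S.T_zero]

theorem T_conj (g : G) {u : V} {a : D} (hu : S.h u u = 0) (ha : S.Lam a) :
    g * S.R u a * g⁻¹ = S.R (S.ρ g u) a := by
  refine S.inj _ _ fun x => ?_
  rw [S.mul_apply, S.mul_apply, S.T_spec hu ha, S.T_spec (by rw [S.iso, hu]) ha, map_add,
    map_smul, S.apply_inv, S.iso_right]

theorem T_smul (c : D) {u : V} {a : D} (hu : S.h u u = 0) (ha : S.Lam a) :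
    S.R (c • u) a = S.R u (star c * a * c) := by
  refine S.inj _ _ fun x => ?_
  rw [S.T_spec (by rw [S.smul, S.smulr, hu, zero_mul, mul_zero]) ha, S.T_spec hu (ha.conj c),
    S.smulr, smul_smul]
  congr 2
  simp only [mul_assoc]

theorem T_fix {u : V} {a : D} (hu : S.h u u = 0) (ha : S.Lam a) {x : V} (hx : S.h x u = 0) :
    S.ρ (S.R u a) x = x := by
  rw [S.T_spec hu ha, hx, zero_mul, zero_smul, add_zero]

/-- Hyperbolic pairs. -/
structure Hyp (e f : V) : Prop where
  ee : S.h e e = 0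
  ff : S.h f f = 0
  ef : S.h e f = 1

variable {S}

theorem Hyp.fe {e f : V} (h : S.Hyp e f) : S.h f e = S.ε := by
  rw [S.herm', h.ef, star_one, mul_one]

theorem Hyp.ne {e f : V} (h : S.Hyp e f) : e ≠ 0 := by
  rintro rfl
  have := h.ef
  rw [S.zero] at this
  exact zero_ne_one this

theorem Hyp.ne' {e f : V} (h : S.Hyp e f) : f ≠ 0 := by
  rintro rfl
  have := h.ef
  rw [S.zeror] at this
  exact zero_ne_one this

theorem Hyp.map {e f : V} (h : S.Hyp e f) (g : G) : S.Hyp (S.ρ g e) (S.ρ g f) :=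
  ⟨by rw [S.iso, h.ee], by rw [S.iso, h.ff], by rw [S.iso, h.ef]⟩

theorem Hyp.symm {e f : V} (h : S.Hyp e f) : S.Hyp f (S.ε • e) :=
  ⟨h.ff, by rw [S.smul, S.smulr, h.ee, zero_mul, mul_zero], by
    rw [S.smulr, h.fe, S.sε, S.εε]⟩

theorem Hyp.scale {e f : V} (h : S.Hyp e f) {c : D} (hc : c ≠ 0) :
    S.Hyp (c • e) ((star c)⁻¹ • f) :=
  ⟨by rw [S.smul, S.smulr, h.ee, zero_mul, mul_zero], by
    rw [S.smul, S.smulr, h.ff, zero_mul, mul_zero], by
    rw [S.smul, S.smulr, h.ef, one_mul, star_inv₀, star_star, mul_inv_cancel₀ hc]⟩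

variable (S)

/-- a vector with given product is completed to an isotropic one -/
theorem iso_fix {x y : V} (hx : S.h x x = 0) (hxy : S.h x y = 1) :
    ∃ c : D, S.h (y + c • x) (y + c • x) = 0 ∧ S.h x (y + c • x) = 1 := by
  obtain ⟨c, hc, -, -⟩ := S.qd.half (S.h y y)
  have hyx : S.h y x = S.ε := by rw [S.herm', hxy, star_one, mul_one]
  have hyy : S.ε * star (S.h y y) = S.h y y := (S.herm' y y).symm
  have hs : S.ε * star c = c := by
    have h1 : S.ε * star c + S.ε * star c = c + c := by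
      rw [← mul_add, ← star_add, hc, hyy]
    have h2 : (2 : D) * (S.ε * star c) = 2 * c := by rw [two_mul, two_mul, h1]
    exact mul_left_cancel₀ S.qd.two' h2
  refine ⟨-c, ?_, ?_⟩
  · rw [S.add, S.addr, S.addr, S.smul, S.smul, S.smulr, S.smulr, hx, hxy, hyx, star_neg,
      zero_mul, mul_zero, add_zero, mul_one, mul_neg, hs]
    rw [← hc]
    abel
  · rw [S.addr, S.smulr, hx, zero_mul, add_zero, hxy]

theorem exists_hyp {e : V} (he : e ≠ 0) (h : S.h e e = 0) : ∃ f, S.Hyp e f := by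
  obtain ⟨y, hy⟩ := S.nd1 he
  obtain ⟨c, h1, h2⟩ := S.iso_fix h hy
  exact ⟨_, h, h1, h2⟩

/-- The projection to the orthogonal space of a pair. -/
def pr (e f x : V) : V := x - S.h x f • e - (S.h x e * S.ε) • f

variable {S}

theorem Hyp.pr_e {e f : V} (h : S.Hyp e f) (x : V) : S.h (S.pr e f x) e = 0 := by
  rw [pr, S.sub, S.sub, S.smul, S.smul, h.ee, h.fe, mul_assoc, S.εε, mul_zero, mul_one, sub_zero,
    sub_self]

theorem Hyp.pr_f {e f : V} (h : S.Hyp e f) (x : V) : S.h (S.pr e f x) f = 0 := by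
  rw [pr, S.sub, S.sub, S.smul, S.smul, h.ef, h.ff, mul_zero, mul_one, sub_self, sub_zero]

variable (S)

theorem pr_eq (e f x : V) : x = S.pr e f x + S.h x f • e + (S.h x e * S.ε) • f := by
  rw [pr]
  abel

variable {S}

/-- two elements which agree on a pair and its orthogonal space -/
theorem Hyp.ext {e f : V} (h : S.Hyp e f) {g g' : G} (he : S.ρ g e = S.ρ g' e)
    (hf : S.ρ g f = S.ρ g' f) (hx : ∀ x, S.h x e = 0 → S.h x f = 0 → S.ρ g x = S.ρ g' x) :
    g = g' := by
  refine S.inj _ _ fun x => ?_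
  rw [S.pr_eq e f x]
  simp only [map_add, map_smul]
  rw [he, hf, hx _ (h.pr_e x) (h.pr_f x)]

/-- linear maps preserving the plane of a pair -/
theorem Hyp.exists_plane {e f : V} (h : S.Hyp e f) {p q r s : D}
    (h1 : S.h (p • e + q • f) (p • e + q • f) = 0) (h2 : S.h (r • e + s • f) (r • e + s • f) = 0)
    (h3 : S.h (p • e + q • f) (r • e + s • f) = 1) :
    ∃ g : G, S.ρ g e = p • e + q • f ∧ S.ρ g f = r • e + s • f ∧
      ∀ x, S.h x e = 0 → S.h x f = 0 → S.ρ g x = x := by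
  let A : V →ₗ[D] V :=
    { toFun := fun x => S.pr e f x + S.h x f • (p • e + q • f) +
        (S.h x e * S.ε) • (r • e + s • f)
      map_add' := fun x y => by
        simp only [pr, S.add, add_mul, add_smul]
        abel
      map_smul' := fun c x => by
        simp only [pr, S.smul, RingHom.id_apply, smul_add, smul_sub, smul_smul, mul_assoc] }
  have hA : ∀ x, A x = S.pr e f x + S.h x f • (p • e + q • f) +
        (S.h x e * S.ε) • (r • e + s • f) := fun x => rfl
  have h4 : S.h (r • e + s • f) (p • e + q • f) = S.ε := by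
    rw [S.herm', h3, star_one, mul_one]
  have key : ∀ (α β α' β' : D) (x y a b : V), S.h a a = 0 → S.h b b = 0 → S.h a b = 1 →
      S.h b a = S.ε → S.h x a = 0 → S.h x b = 0 → S.h y a = 0 → S.h y b = 0 →
      S.h (x + α • a + β • b) (y + α' • a + β' • b) = S.h x y + α * star β' +
        β * S.ε * star α' := by
    intro α β α' β' x y a b haa hbb hab hba hxa hxb hya hyb
    have hay : S.h a y = 0 := S.flip hya
    have hby : S.h b y = 0 := S.flip hyb
    simp only [S.add, S.addr, S.smul, S.smulr, haa, hbb, hab, hba, hxa, hxb, hay, hby, zero_mul,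
      mul_zero, add_zero, zero_add, one_mul, mul_assoc]
  obtain ⟨g, hg⟩ := S.full A (fun x y => by
    rw [hA, hA, key _ _ _ _ _ _ _ _ h1 h2 h3 h4]
    · conv_rhs => rw [S.pr_eq e f x, S.pr_eq e f y]
      rw [key _ _ _ _ _ _ _ _ h.ee h.ff h.ef h.fe (h.pr_e x) (h.pr_f x) (h.pr_e y) (h.pr_f y)]
    all_goals rw [S.addr, S.smulr, S.smulr, h.pr_e, h.pr_f, zero_mul, zero_mul, add_zero])
  refine ⟨g, ?_, ?_, fun x hx hx' => ?_⟩
  · rw [hg, hA, pr, h.ef, h.ee, zero_mul, zero_smul, zero_smul, one_smul, one_smul, sub_self,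
      sub_zero, zero_add, add_zero]
  · rw [hg, hA, pr, h.ff, h.fe, S.εε, zero_smul, zero_smul, one_smul, one_smul, sub_zero, sub_self,
      zero_add, zero_add]
  · rw [hg, hA, pr, hx, hx', zero_mul, zero_smul, zero_smul, zero_smul, zero_smul, sub_zero,
      sub_zero, add_zero, add_zero]

/-- `m` acts by `c` on `e`, `(star c)⁻¹` on `f`, trivially on the orthogonal space. -/
structure IsM (S : HS k D V G) (e f : V) (c : D) (m : G) : Prop where
  pe : S.ρ m e = c • e
  pf : S.ρ m f = (star c)⁻¹ • f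
  px : ∀ x, S.h x e = 0 → S.h x f = 0 → S.ρ m x = x

theorem Hyp.exists_m {e f : V} (h : S.Hyp e f) {c : D} (hc : c ≠ 0) : ∃ m, IsM S e f c m := by
  obtain ⟨g, h1, h2, h3⟩ := h.exists_plane (p := c) (q := 0) (r := 0) (s := (star c)⁻¹)
    (by rw [zero_smul, add_zero, S.smul, S.smulr, h.ee, zero_mul, mul_zero])
    (by rw [zero_smul, zero_add, S.smul, S.smulr, h.ff, zero_mul, mul_zero])
    (by rw [zero_smul, zero_smul, add_zero, zero_add, S.smul, S.smulr, h.ef, one_mul, star_inv₀,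
      star_star, mul_inv_cancel₀ hc])
  exact ⟨g, by rw [h1, zero_smul, add_zero], by rw [h2, zero_smul, zero_add], h3⟩

theorem IsM.uniq {e f : V} (h : S.Hyp e f) {c : D} {m m' : G} (hm : IsM S e f c m)
    (hm' : IsM S e f c m') : m = m' :=
  h.ext (by rw [hm.pe, hm'.pe]) (by rw [hm.pf, hm'.pf]) fun x h1 h2 => by rw [hm.px x h1 h2, hm'.px x h1 h2]

theorem IsM.mul {e f : V} {c c' : D} {m m' : G} (hm : IsM S e f c m) (hm' : IsM S e f c' m') :
    IsM S e f (c' * c) (m * m') where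
  pe := by rw [S.mul_apply, hm'.pe, map_smul, hm.pe, smul_smul]
  pf := by rw [S.mul_apply, hm'.pf, map_smul, hm.pf, smul_smul, star_mul, mul_inv_rev]
  px x h1 h2 := by rw [S.mul_apply, hm'.px x h1 h2, hm.px x h1 h2]

theorem IsM.inv {e f : V} {c : D} (hc : c ≠ 0) {m : G} (hm : IsM S e f c m) :
    IsM S e f c⁻¹ m⁻¹ where
  pe := by
    have h1 := S.inv_apply m (c⁻¹ • e)
    rw [map_smul, hm.pe, smul_smul, inv_mul_cancel₀ hc, one_smul] at h1
    exact h1
  pf := by
    have h1 := S.inv_apply m (star c • f)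
    have hc' : star c ≠ 0 := star_ne_zero.2 hc
    rw [map_smul, hm.pf, smul_smul, mul_inv_cancel₀ hc', one_smul] at h1
    rw [h1, star_inv₀, inv_inv]
  px x h1 h2 := by
    have h3 := S.inv_apply m x
    rwa [hm.px x h1 h2] at h3

theorem IsM.one {e f : V} : IsM S e f 1 (1 : G) where
  pe := by rw [S.one_apply, one_smul]
  pf := by rw [S.one_apply, star_one, inv_one, one_smul]
  px x _ _ := S.one_apply x

theorem IsM.pow {e f : V} {c : D} {m : G} (hm : IsM S e f c m) (N : ℕ) :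
    IsM S e f (c ^ N) (m ^ N) := by
  induction N with
  | zero => rw [pow_zero, pow_zero]; exact IsM.one
  | succ N ih =>
    rw [pow_succ', pow_succ]
    exact ih.mul hm

theorem IsM.conj {e f : V} {c : D} {m : G} (hm : IsM S e f c m) (g : G) :
    IsM S (S.ρ g e) (S.ρ g f) c (g * m * g⁻¹) where
  pe := by rw [S.mul_apply, S.mul_apply, S.inv_apply, hm.pe, map_smul]
  pf := by rw [S.mul_apply, S.mul_apply, S.inv_apply, hm.pf, map_smul]
  px x h1 h2 := by
    rw [S.iso_right] at h1 h2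
    rw [S.mul_apply, S.mul_apply, hm.px _ h1 h2, S.apply_inv]

/-- The Weyl element `e ↦ b f`, `f ↦ -b⁻¹ e`. -/
noncomputable def w (S : HS k D V G) (e f : V) (b : D) : G :=
  S.R e (-(S.ε * b⁻¹)) * S.R f b * S.R e (-(S.ε * b⁻¹))

theorem Hyp.w_e {e f : V} (h : S.Hyp e f) {b : D} (hb0 : b ≠ 0) (hb : S.Lam b) :
    S.ρ (w S e f b) e = b • f := by
  have hb' : S.Lam (-(S.ε * b⁻¹)) := hb.inv.eps.neg
  rw [w, S.mul_apply, S.mul_apply, S.T_fix h.ee hb' h.ee, S.T_spec h.ff hb, S.T_spec h.ee hb',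
    S.add, S.smul, h.ee, h.ef, h.fe, one_mul, zero_add, mul_neg, mul_assoc, ← mul_assoc S.ε S.ε,
    S.εε, one_mul, mul_inv_cancel₀ hb0, neg_smul, one_smul]
  abel

theorem Hyp.w_f {e f : V} (h : S.Hyp e f) {b : D} (hb0 : b ≠ 0) (hb : S.Lam b) :
    S.ρ (w S e f b) f = -(b⁻¹ • e) := by
  have hb' : S.Lam (-(S.ε * b⁻¹)) := hb.inv.eps.neg
  have e1 : S.ρ (S.R e (-(S.ε * b⁻¹))) f = f - b⁻¹ • e := by
    rw [S.T_spec h.ee hb', h.fe, mul_neg, S.εε', neg_smul, sub_eq_add_neg]
  have e2 : S.ρ (S.R f b) (f - b⁻¹ • e) = -(b⁻¹ • e) := by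
    rw [S.T_spec h.ff hb, S.sub, S.smul, h.ff, h.ef, mul_one, zero_sub, neg_mul,
      inv_mul_cancel₀ hb0, neg_smul, one_smul]
    abel
  rw [w, S.mul_apply, S.mul_apply, e1, e2, map_neg, map_smul, S.T_fix h.ee hb' h.ee]

theorem Hyp.w_x {e f : V} (h : S.Hyp e f) {b : D} (hb0 : b ≠ 0) (hb : S.Lam b) {x : V}
    (hx : S.h x e = 0) (hx' : S.h x f = 0) : S.ρ (w S e f b) x = x := by
  have hb' : S.Lam (-(S.ε * b⁻¹)) := hb.inv.eps.neg
  rw [w, S.mul_apply, S.mul_apply, S.T_fix h.ee hb' hx, S.T_fix h.ff hb hx', S.T_fix h.ee hb' hx]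

/-- product of two Weyl elements -/
theorem Hyp.w_w {e f : V} (h : S.Hyp e f) {b b' : D} (hb0 : b ≠ 0) (hb : S.Lam b) (hb0' : b' ≠ 0)
    (hb' : S.Lam b') : IsM S e f (-(b * b'⁻¹)) (w S e f b' * w S e f b) where
  pe := by
    rw [S.mul_apply, h.w_e hb0 hb, map_smul, h.w_f hb0' hb', smul_neg, smul_smul, neg_smul]
  pf := by
    rw [S.mul_apply, h.w_f hb0 hb, map_neg, map_smul, h.w_e hb0' hb', smul_smul, star_neg,
      star_mul, star_inv₀, hb.star_eq, hb'.star_eq, inv_neg, inv_neg, neg_mul_neg, mul_inv_rev,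
      inv_inv, mul_inv_rev, S.εi, neg_smul, mul_assoc, S.εε']
  px x h1 h2 := by rw [S.mul_apply, h.w_x hb0 hb h1 h2, h.w_x hb0' hb' h1 h2]

end HS

end Vale.Agent.P092.H670.Qn
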