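import Vale.Agent.P092.H670.Qn1

/-!
P092 (helper670), row CLASS-H, part 2: the isometry group of a hermitian or skew-hermitian form over a
quaternion division algebra is generated by the transvections.
-/

set_option linter.all false

namespace Vale.Agent.P092.H670.Qn

variable {k D V G : Type*} [Field k] [DivisionRing D] [StarRing D] [Algebra k D]
  [AddCommGroup V] [Module D V] [Group G] (S : HS k D V G)

namespace HS

/-- The group generated by the transvections. -/
def GT : Subgroup G := Subgroup.closure {g | ∃ u a, S.h u u = 0 ∧ S.Lam a ∧ g = S.R u a}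

theorem T_mem {u : V} {a : D} (hu : S.h u u = 0) (ha : S.Lam a) : S.R u a ∈ S.GT :=
  Subgroup.subset_closure ⟨u, a, hu, ha, rfl⟩

theorem conj_mem (g : G) {x : G} (hx : x ∈ S.GT) : g * x * g⁻¹ ∈ S.GT := by
  induction hx using Subgroup.closure_induction with
  | mem x hx =>
    obtain ⟨u, a, hu, ha, rfl⟩ := hx
    rw [S.T_conj g hu ha]
    exact S.T_mem (by rw [S.iso, hu]) ha
  | one => rw [mul_one, mul_inv_cancel]; exact Subgroup.one_mem _
  | mul x y _ _ hx hy =>
    have e : g * (x * y) * g⁻¹ = g * x * g⁻¹ * (g * y * g⁻¹) := by group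
    rw [e]
    exact Subgroup.mul_mem _ hx hy
  | inv x _ hx =>
    have e : g * x⁻¹ * g⁻¹ = (g * x * g⁻¹)⁻¹ := by group
    rw [e]
    exact Subgroup.inv_mem _ hx

theorem gt_normal : S.GT.Normal := ⟨fun x hx g => S.conj_mem g hx⟩

theorem w_mem {e f : V} (h : S.Hyp e f) {b : D} (hb : S.Lam b) : w S e f b ∈ S.GT := by
  have hb' : S.Lam (-(S.ε * b⁻¹)) := hb.inv.eps.neg
  exact Subgroup.mul_mem _ (Subgroup.mul_mem _ (S.T_mem h.ee hb') (S.T_mem h.ff hb))
    (S.T_mem h.ee hb')

/-- a hyperbolic pair in the lines of two isotropic vectors -/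
theorem hyp_of {x y : V} (hx : S.h x x = 0) (hy : S.h y y = 0) (hxy : S.h x y ≠ 0) :
    S.Hyp x ((star (S.h x y))⁻¹ • y) :=
  ⟨hx, by rw [S.smul, S.smulr, hy, zero_mul, mul_zero], by
    rw [S.smulr, star_inv₀, star_star, mul_inv_cancel₀ hxy]⟩

/-- Two isotropic vectors have a common isotropic vector orthogonal to none of them. -/
theorem exists_common {x y : V} (hx : x ≠ 0) (hy : y ≠ 0) (hxx : S.h x x = 0) (hyy : S.h y y = 0) :
    ∃ z, S.h z z = 0 ∧ S.h x z ≠ 0 ∧ S.h y z ≠ 0 := by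
  by_cases hxy : S.h x y = 0
  · obtain ⟨z₁, h1⟩ := S.exists_hyp hx hxx
    obtain ⟨z₂, h2⟩ := S.exists_hyp hy hyy
    by_cases a : S.h y z₁ = 0
    · by_cases b : S.h x z₂ = 0
      · refine ⟨z₁ + z₂ + (-S.h z₁ z₂) • x, ?_, ?_, ?_⟩
        · have e1 : S.h z₂ x = 0 := S.flip b
          have e2 : S.h z₁ x = S.ε := h1.fe
          have e3 : S.h z₂ z₁ = S.ε * star (S.h z₁ z₂) := S.herm' _ _
          simp only [S.add, S.addr, S.smul, S.smulr, h1.ff, h2.ff, hxx, h1.ef, b, e1, e2, e3,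
            star_neg, mul_zero, zero_mul, add_zero, zero_add, mul_one, mul_neg]
          abel
        · rw [S.addr, S.addr, S.smulr, h1.ef, b, hxx, zero_mul, add_zero, add_zero]
          exact one_ne_zero
        · rw [S.addr, S.addr, S.smulr, a, h2.ef, S.flip hxy, zero_mul, add_zero, zero_add]
          exact one_ne_zero
      · exact ⟨z₂, h2.ff, b, by rw [h2.ef]; exact one_ne_zero⟩
    · exact ⟨z₁, h1.ff, by rw [h1.ef]; exact one_ne_zero, a⟩
  · obtain ⟨c, hc0, hc⟩ := S.lam_exists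
    have hh := S.hyp_of hxx hyy hxy
    obtain ⟨f, hf⟩ : ∃ f, f = (star (S.h x y))⁻¹ • y := ⟨_, rfl⟩
    rw [← hf] at hh
    have hy' : y = star (S.h x y) • f := by
      rw [hf, smul_smul, mul_inv_cancel₀ (star_ne_zero.2 hxy), one_smul]
    refine ⟨f + c • x, ?_, ?_, ?_⟩
    · rw [S.add, S.addr, S.addr, S.smul, S.smul, S.smulr, S.smulr, hh.ff, hh.fe, hh.ef, hxx,
        zero_mul, mul_zero, add_zero, zero_add, mul_one, add_comm]
      exact hc
    · rw [S.addr, S.smulr, hh.ef, hxx, zero_mul, add_zero]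
      exact one_ne_zero
    · rw [hy', S.smul, S.addr, S.smulr, hh.ff, hh.fe, zero_add]
      exact mul_ne_zero (star_ne_zero.2 hxy) (mul_ne_zero S.ε0 (star_ne_zero.2 hc0))

/-- an element of `GT` moving the line of `x` to the line of `y`, not orthogonal -/
theorem move_one {x y : V} (hx : S.h x x = 0) (hy : S.h y y = 0) (hxy : S.h x y ≠ 0) :
    ∃ g ∈ S.GT, ∃ c : D, c ≠ 0 ∧ S.ρ g x = c • y := by
  obtain ⟨b, hb0, hb⟩ := S.lam_exists
  have hh := S.hyp_of hx hy hxy
  refine ⟨_, S.w_mem hh hb, b * (star (S.h x y))⁻¹, mul_ne_zero hb0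
    (inv_ne_zero (star_ne_zero.2 hxy)), ?_⟩
  rw [hh.w_e hb0 hb, smul_smul]

/-- `GT` is transitive on the isotropic lines -/
theorem move {x y : V} (hx0 : x ≠ 0) (hy0 : y ≠ 0) (hx : S.h x x = 0) (hy : S.h y y = 0) :
    ∃ g ∈ S.GT, ∃ c : D, c ≠ 0 ∧ S.ρ g x = c • y := by
  obtain ⟨z, hz, h1, h2⟩ := S.exists_common hx0 hy0 hx hy
  obtain ⟨g, hg, c, hc, e1⟩ := S.move_one hx hz h1
  obtain ⟨g', hg', c', hc', e2⟩ := S.move_one hz hy (fun h => h2 (S.flip h))
  refine ⟨g' * g, S.GT.mul_mem hg' hg, c * c', mul_ne_zero hc hc', ?_⟩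
  rw [S.mul_apply, e1, map_smul, e2, smul_smul]

/-- the group is transitive on the isotropic vectors -/
theorem move' {x y : V} (hx0 : x ≠ 0) (hy0 : y ≠ 0) (hx : S.h x x = 0) (hy : S.h y y = 0) :
    ∃ g : G, S.ρ g x = y := by
  obtain ⟨g, -, c, hc, h1⟩ := S.move hx0 hy0 hx hy
  obtain ⟨f, hf⟩ := S.exists_hyp hy0 hy
  obtain ⟨m, hm⟩ := hf.exists_m (inv_ne_zero hc)
  refine ⟨m * g, ?_⟩
  rw [S.mul_apply, h1, map_smul, hm.pe, smul_smul, mul_inv_cancel₀ hc, one_smul]

/-- The reflection mapping `v` to `g v`. -/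
theorem refl_spec (g : G) {v : V} (hv : S.h v (S.ρ g v - v) ≠ 0) (x : V) :
    S.ρ (S.R (S.ρ g v - v) (S.h v (S.ρ g v - v))⁻¹) x =
      x + (S.h x (S.ρ g v - v) * (S.h v (S.ρ g v - v))⁻¹) • (S.ρ g v - v) := by
  refine S.R_spec ?_ x
  set w := S.ρ g v - v with hw
  set b := S.h v w with hb
  have h1 : S.h w v = S.ε * star b := S.herm' _ _
  have h2 : S.h w w = -(S.ε * star b) - b := by
    have e1 : S.h w w = S.h (S.ρ g v) w - S.h v w := by
      conv_lhs => rw [hw, S.sub]
    have e2 : S.h (S.ρ g v) w = -S.h w v := by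
      rw [hw, S.subr, S.sub, S.iso]
      abel
    rw [e1, e2, h1, ← hb]
  have h3 : star b * star b⁻¹ = 1 := by
    rw [← star_mul, inv_mul_cancel₀ hv, star_one]
  rw [h2, star_inv₀]
  have h3' : star b * (star b)⁻¹ = 1 := mul_inv_cancel₀ (star_ne_zero.2 hv)
  have e3 : S.ε * b⁻¹ * (-(S.ε * star b) - b) * (star b)⁻¹ =
      -(b⁻¹) - S.ε * (star b)⁻¹ := by
    rw [S.εc b⁻¹, mul_sub, sub_mul, mul_neg, neg_mul, mul_assoc b⁻¹ S.ε, S.εε',
      mul_assoc b⁻¹ (star b), h3', mul_one, ← S.εc b⁻¹, mul_assoc S.ε, inv_mul_cancel₀ hv, mul_one]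
  rw [e3]
  abel

/-- isotropic vectors with the same product with `e` are conjugate under the stabiliser of `e` -/
theorem move_f {e f₁ f₂ : V} (h1 : S.Hyp e f₁) (h2 : S.Hyp e f₂) :
    ∃ g : G, S.ρ g e = e ∧ S.ρ g f₁ = f₂ := by
  have key : ∀ f₁, S.Hyp e f₁ → S.h f₁ f₂ ≠ 0 → ∃ g : G, S.ρ g e = e ∧ S.ρ g f₁ = f₂ := by
    intro f₁ h1 h12
    obtain ⟨g, hg⟩ := S.move' h1.ne' h2.ne' h1.ff h2.ff
    have h3 : S.h f₁ (S.ρ g f₁ - f₁) ≠ 0 := by
      rwa [hg, S.subr, h1.ff, sub_zero]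
    have h4 := S.refl_spec g h3
    rw [hg] at h4 h3
    refine ⟨_, (h4 e).trans ?_, (h4 f₁).trans ?_⟩
    · rw [S.subr, h1.ef, h2.ef, sub_self, zero_mul, zero_smul, add_zero]
    · rw [mul_inv_cancel₀ h3, one_smul]
      abel
  by_cases h12 : S.h f₁ f₂ = 0
  · obtain ⟨a, ha0, ha⟩ := S.lam_exists
    have h3 := h1.map (S.R e a)
    have h4 : S.ρ (S.R e a) e = e := S.T_fix h1.ee ha h1.ee
    rw [h4] at h3
    obtain ⟨g, hg1, hg2⟩ := key _ h3 (by
      rw [S.T_spec h1.ee ha, S.add, S.smul, h12, h2.ef, mul_one, zero_add, h1.fe]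
      exact mul_ne_zero S.ε0 ha0)
    refine ⟨g * S.R e a, ?_, ?_⟩
    · rw [S.mul_apply, h4, hg1]
    · rw [S.mul_apply, hg2]
  · exact key f₁ h1 h12

/-- the group is transitive on hyperbolic pairs -/
theorem move_pair {e f e' f' : V} (h : S.Hyp e f) (h' : S.Hyp e' f') :
    ∃ g : G, S.ρ g e = e' ∧ S.ρ g f = f' := by
  obtain ⟨g, hg⟩ := S.move' h.ne h'.ne h.ee h'.ee
  have h1 := h.map g
  rw [hg] at h1
  obtain ⟨g', h2, h3⟩ := S.move_f h1 h'
  exact ⟨g' * g, by rw [S.mul_apply, hg, h2], by rw [S.mul_apply, h3]⟩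

theorem k_ne {r : k} (hr : r ≠ 0) : algebraMap k D r ≠ 0 := by
  rw [Ne, map_eq_zero_iff _ (FaithfulSMul.algebraMap_injective k D)]
  exact hr

/-- the element `v ↦ v + h(v,x) y + h(v,y) x` -/
theorem exists_E (hε : S.ε = -1) {x y : V} (hx : S.h x x = 0) (hy : S.h y y = 0)
    (hxy : S.h x y = 0) (s : D) (hs : s = 1 ∨ s = -1) :
    ∃ g ∈ S.GT, ∀ v, S.ρ g v = v + s • (S.h v x • y + S.h v y • x) := by
  have hyx : S.h y x = 0 := S.flip hxy
  have l1 : S.Lam 1 := Lam.of_star (by rw [hε, star_one, mul_one, neg_neg])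
  have l2 : S.Lam (-1) := l1.neg
  have hsy : S.h (x + s • y) (x + s • y) = 0 := by
    rw [S.add, S.addr, S.addr, S.smul, S.smul, S.smulr, S.smulr, hx, hy, hxy, hyx]
    simp
  have hss : star s = s := by rcases hs with rfl | rfl <;> simp
  have hs2 : s * s = 1 := by rcases hs with rfl | rfl <;> simp
  refine ⟨S.R (x + s • y) 1 * (S.R x (-1) * S.R y (-1)), S.GT.mul_mem (S.T_mem hsy l1)
    (S.GT.mul_mem (S.T_mem hx l2) (S.T_mem hy l2)), fun v => ?_⟩
  rw [S.mul_apply, S.mul_apply, S.T_spec hy l2, S.T_spec hx l2, S.T_spec hsy l1]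
  simp only [S.add, S.addr, S.smul, S.smulr, S.neg, S.negr, hx, hy, hxy, hyx, hss, mul_zero,
    zero_mul, add_zero, zero_add, mul_one, mul_neg, smul_add, add_smul, neg_smul, smul_smul,
    zero_smul, neg_zero]
  have e1 : S.h v y * s * s = S.h v y := by rw [mul_assoc, hs2, mul_one]
  have e2 : S.h v y * s = s * S.h v y := by rcases hs with rfl | rfl <;> simp
  have e3 : S.h v x * s = s * S.h v x := by rcases hs with rfl | rfl <;> simp
  have e4 : s * S.h v y * s = S.h v y := by rw [← e2, e1]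
  simp only [add_mul, add_smul, e2, e3, e4]
  abel

/-- two orthogonal pairs are exchanged by an element of `GT` -/
theorem exists_swap (hε : S.ε = -1) {e f e' f' : V} (h : S.Hyp e f) (h' : S.Hyp e' f')
    (hee : S.h e e' = 0) (hef : S.h e f' = 0) (hfe : S.h f e' = 0) (hff : S.h f f' = 0) :
    ∃ g ∈ S.GT, S.ρ g e = e' ∧ S.ρ g f = f' := by
  obtain ⟨g₁, m1, E1⟩ := S.exists_E hε h'.ee h.ff (S.flip hfe) 1 (Or.inl rfl)
  obtain ⟨g₂, m2, E2⟩ := S.exists_E hε h.ee h'.ff hef (-1) (Or.inr rfl)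
  refine ⟨g₁ * (g₂ * g₁), S.GT.mul_mem m1 (S.GT.mul_mem m2 m1), ?_, ?_⟩
  · have a1 : S.ρ g₁ e = e + e' := by
      rw [E1, hee, h.ef]; simp
    have a2 : S.ρ g₂ (e + e') = e' := by
      rw [E2, S.add, S.add, h.ee, S.flip hee, hef, h'.ef]; simp
    have a3 : S.ρ g₁ e' = e' := by
      rw [E1, h'.ee, S.flip hfe]; simp
    rw [S.mul_apply, S.mul_apply, a1, a2, a3]
  · have a1 : S.ρ g₁ f = f := by
      rw [E1, hfe, h.ff]; simp
    have a2 : S.ρ g₂ f = f + f' := by
      rw [E2, h.fe, hff, hε]; simp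
    have a3 : S.ρ g₁ (f + f') = f' := by
      rw [E1, S.add, S.add, hfe, h'.fe, h.ff, S.flip hff, hε]; simp
    rw [S.mul_apply, S.mul_apply, a1, a2, a3]

/-- **the elements `m(c)` are products of transvections** -/
theorem m_mem {e f : V} (h : S.Hyp e f) {c : D} (hc : c ≠ 0) {m : G} (hm : IsM S e f c m) :
    m ∈ S.GT := by
  rcases S.hε with hε | hε
  · obtain ⟨b, hb0, hb, hx⟩ := S.qd.pure c
    have l1 : S.Lam b := Lam.of_star (by rw [hε, one_mul, hb])
    have l2 : S.Lam (-(c * b)) := Lam.neg (Lam.of_star (by rw [hε, one_mul, hx]))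
    have n2 : -(c * b) ≠ 0 := neg_ne_zero.2 (mul_ne_zero hc hb0)
    have h1 := h.w_w n2 l2 hb0 l1
    have e1 : -(-(c * b) * b⁻¹) = c := by
      rw [neg_mul, neg_neg, mul_assoc, mul_inv_cancel₀ hb0, mul_one]
    rw [e1] at h1
    rw [hm.uniq h h1]
    exact S.GT.mul_mem (S.w_mem h l1) (S.w_mem h l2)
  · -- the skew-hermitian case
    obtain ⟨hsq, e₀, f₀, e₁, f₁, a1, a2, a3, a4, a5, a6, hee, hef, hfe, hff⟩ := S.rk hε
    have h0 : S.Hyp e₀ f₀ := ⟨a1, a2, a3⟩
    have h1 : S.Hyp e₁ f₁ := ⟨a4, a5, a6⟩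
    obtain ⟨g, hg1, hg2⟩ := S.move_pair h h0
    have hm0 := hm.conj g
    rw [hg1, hg2] at hm0
    suffices hs : g * m * g⁻¹ ∈ S.GT by
      have := S.conj_mem g⁻¹ hs
      have e1 : g⁻¹ * (g * m * g⁻¹) * g⁻¹⁻¹ = m := by group
      rwa [e1] at this
    haveI := S.gt_normal
    let φ := QuotientGroup.mk' S.GT
    have hφ : ∀ x ∈ S.GT, φ x = 1 := fun x hx => (QuotientGroup.eq_one_iff x).2 hx
    choose M hM using fun c : {c : D // c ≠ 0} => h0.exists_m c.2
    choose M' hM' using fun c : {c : D // c ≠ 0} => h1.exists_m c.2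
    obtain ⟨s, hs, hse, hsf⟩ := S.exists_swap hε h0 h1 hee hef hfe hff
    have hMM : ∀ c, φ (M c) = φ (M' c) := by
      intro c
      have e1 := (hM c).conj s
      rw [hse, hsf] at e1
      have e2 := (hM' c).uniq h1 e1
      rw [e2, map_mul, map_mul, map_inv, hφ s hs, one_mul, inv_one, mul_one]
    have hcomm : ∀ c d, M c * M' d = M' d * M c := by
      intro c d
      refine h0.ext ?_ ?_ fun x hx hx' => ?_
      · rw [S.mul_apply, S.mul_apply, (hM' d).px e₀ hee hef, (hM c).pe, map_smul,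
          (hM' d).px e₀ hee hef]
      · rw [S.mul_apply, S.mul_apply, (hM' d).px f₀ hfe hff, (hM c).pf, map_smul,
          (hM' d).px f₀ hfe hff]
      · rw [S.mul_apply, S.mul_apply, (hM c).px x hx hx']
        refine (hM c).px _ ?_ ?_
        · rw [S.iso_left, ((hM' d).inv d.2).px e₀ hee hef, hx]
        · rw [S.iso_left, ((hM' d).inv d.2).px f₀ hfe hff, hx']
    have hcm : ∀ c d, φ (M c) * φ (M d) = φ (M d) * φ (M c) := by
      intro c d
      rw [hMM d, ← map_mul, ← map_mul, hcomm]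
    have hmul : ∀ c d : {c : D // c ≠ 0}, φ (M ⟨c.1 * d.1, mul_ne_zero c.2 d.2⟩) =
        φ (M c) * φ (M d) := by
      intro c d
      rw [hcm, ← map_mul]
      congr 1
      exact (hM _).uniq h0 ((hM d).mul (hM c))
    have hker : ∀ (r : k) (hr : algebraMap k D r ≠ 0), φ (M ⟨algebraMap k D r, hr⟩) = 1 := by
      intro r hr
      have l1 : S.Lam (-1) := (Lam.of_star (by rw [hε, star_one, mul_one, neg_neg]) : S.Lam 1).neg
      have l2 : S.Lam (algebraMap k D r) := by
        refine Lam.of_star ?_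
        rw [hε, S.qd.stk, neg_one_mul, neg_neg]
      have e1 := h0.w_w hr l2 (neg_ne_zero.2 one_ne_zero) l1
      have e2 : -(algebraMap k D r * (-1)⁻¹) = algebraMap k D r := by
        rw [inv_neg, inv_one, mul_neg_one, neg_neg]
      rw [e2] at e1
      rw [(hM ⟨algebraMap k D r, hr⟩).uniq h0 e1]
      exact hφ _ (S.GT.mul_mem (S.w_mem h0 l1) (S.w_mem h0 l2))
    have hstar : ∀ c : {c : D // c ≠ 0}, φ (M ⟨star c.1, star_ne_zero.2 c.2⟩) = φ (M c) := by
      rintro ⟨c, hc⟩
      obtain ⟨s, hs0, hs⟩ := S.qd.conj c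
      have e1 := hmul ⟨s, hs0⟩ ⟨star c, star_ne_zero.2 hc⟩
      have e2 := hmul ⟨c, hc⟩ ⟨s, hs0⟩
      have e3 : (⟨s * star c, mul_ne_zero hs0 (star_ne_zero.2 hc)⟩ : {c : D // c ≠ 0}) =
        ⟨c * s, mul_ne_zero hc hs0⟩ := Subtype.ext hs
      rw [show (⟨s * star c, mul_ne_zero hs0 (star_ne_zero.2 hc)⟩ : {c : D // c ≠ 0}) =
        ⟨c * s, mul_ne_zero hc hs0⟩ from e3, e2, hcm] at e1
      exact (mul_left_cancel e1).symm
    have hsqr : ∀ c : {c : D // c ≠ 0}, φ (M c) * φ (M c) = 1 := by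
      rintro ⟨c, hc⟩
      have e1 := hmul ⟨c, hc⟩ ⟨star c, star_ne_zero.2 hc⟩
      have e3 : φ (M ⟨star c, star_ne_zero.2 hc⟩) = φ (M ⟨c, hc⟩) := hstar ⟨c, hc⟩
      rw [e3] at e1
      obtain ⟨r, hr⟩ := S.qd.sym (c * star c) (by rw [star_mul, star_star])
      have hr0 : algebraMap k D r ≠ 0 := by
        rw [← hr]; exact mul_ne_zero hc (star_ne_zero.2 hc)
      have e2 : (⟨c * star c, mul_ne_zero hc (star_ne_zero.2 hc)⟩ : {c : D // c ≠ 0}) =
        ⟨algebraMap k D r, hr0⟩ := Subtype.ext hr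
      rw [← e1]
      show φ (M ⟨c * star c, mul_ne_zero hc (star_ne_zero.2 hc)⟩) = 1
      rw [e2, hker]
    have hall : ∀ c : {c : D // c ≠ 0}, φ (M c) = 1 := by
      rintro ⟨c, hc⟩
      -- `c` is a multiple of a square
      obtain ⟨r, hr⟩ := hsq c
      obtain ⟨t, ht⟩ := S.qd.sym (c + star c) (by rw [star_add, star_star, add_comm])
      have key : ∀ r : k, algebraMap k D r * algebraMap k D r = c * star c → t + 2 * r ≠ 0 →
          φ (M ⟨c, hc⟩) = 1 := by
        intro r hr h2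
        have ha : algebraMap k D (t + 2 * r) ≠ 0 := k_ne h2
        have e1 : (c + algebraMap k D r) * (c + algebraMap k D r) =
            algebraMap k D (t + 2 * r) * c := by
          have e2 : algebraMap k D t * c = c * c + c * star c := by
            rw [← ht, add_mul]
            congr 1
            -- `star c * c = c * star c`
            obtain ⟨r', hr'⟩ := S.qd.sym (c * star c) (by rw [star_mul, star_star])
            have e3 : c * (star c * c) = c * (c * star c) := by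
              rw [← mul_assoc, hr', Algebra.commutes]
            exact mul_left_cancel₀ hc e3
          rw [map_add, add_mul (algebraMap k D t), e2, map_mul, map_ofNat, mul_add, add_mul,
            add_mul, hr, ← Algebra.commutes r c, two_mul, add_mul]
          abel
        have hy : c + algebraMap k D r ≠ 0 := by
          intro h0
          rw [h0, mul_zero] at e1
          exact mul_ne_zero ha hc e1.symm
        have e4 := hmul ⟨_, hy⟩ ⟨_, hy⟩
        rw [hsqr] at e4
        have e5 := hmul ⟨_, ha⟩ ⟨c, hc⟩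
        rw [hker, one_mul] at e5
        rw [← e5, ← e4]
        congr 2
        exact Subtype.ext e1.symm
      by_cases h2 : t + 2 * r = 0
      · refine key (-r) (by rw [map_neg, neg_mul_neg, hr]) fun h3 => ?_
        have h4 : (2 : k) * 2 * r = 0 := by linear_combination h2 - h3
        have h5 : r = 0 := (mul_eq_zero.1 h4).resolve_left (mul_ne_zero S.qd.two S.qd.two)
        rw [h5, map_zero, mul_zero] at hr
        exact mul_ne_zero hc (star_ne_zero.2 hc) hr.symm
      · exact key r hr h2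
    have e1 := hall ⟨c, hc⟩
    rw [hm0.uniq h0 (hM ⟨c, hc⟩)]
    exact (QuotientGroup.eq_one_iff _).1 e1

/-- elements preserving a hyperbolic plane, and a line in it -/
theorem plane_line {e f : V} (h : S.Hyp e f) {g : G} {c : D} (hc : c ≠ 0) (hge : S.ρ g e = c • e)
    (hx : ∀ x, S.h x e = 0 → S.h x f = 0 → S.ρ g x = x) : g ∈ S.GT := by
  obtain ⟨m, hm⟩ := h.exists_m hc
  have hmi := hm.inv hc
  set g₁ := m⁻¹ * g with hg₁
  have e1 : S.ρ g₁ e = e := by
    rw [hg₁, S.mul_apply, hge, map_smul, hmi.pe, smul_smul, mul_inv_cancel₀ hc, one_smul]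
  have e2 : ∀ x, S.h x e = 0 → S.h x f = 0 → S.ρ g₁ x = x := by
    intro x h1 h2
    rw [hg₁, S.mul_apply, hx x h1 h2, hmi.px x h1 h2]
  -- the image of `f`
  have h3 : S.h e (S.ρ g₁ f) = 1 := by
    nth_rewrite 1 [← e1]
    rw [S.iso, h.ef]
  have h3' : S.h (S.ρ g₁ f) e = S.ε := by rw [S.herm', h3, star_one, mul_one]
  have h4 : S.pr e f (S.ρ g₁ f) = 0 := by
    refine S.eq_zero_of _ fun y => ?_
    have h5 : ∀ y, S.h y e = 0 → S.h y f = 0 → S.h (S.pr e f (S.ρ g₁ f)) y = 0 := by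
      intro y hy1 hy2
      rw [pr, S.sub, S.sub, S.smul, S.smul, S.flip hy1, S.flip hy2, mul_zero, mul_zero, sub_zero,
        sub_zero]
      rw [← e2 y hy1 hy2, S.iso]
      exact S.flip hy2
    rw [S.pr_eq e f y, S.addr, S.addr, S.smulr, S.smulr, h.pr_e, h.pr_f, zero_mul, zero_mul,
      add_zero, add_zero]
    exact h5 _ (h.pr_e y) (h.pr_f y)
  have h5 := S.pr_eq e f (S.ρ g₁ f)
  rw [h4, zero_add, h3', S.εε, one_smul] at h5
  set r := S.h (S.ρ g₁ f) f with hr
  have h6 : S.Lam r := by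
    have h7 : S.h (S.ρ g₁ f) (S.ρ g₁ f) = 0 := by rw [S.iso, h.ff]
    rw [h5, S.add, S.addr, S.addr, S.smul, S.smul, S.smulr, S.smulr, h.ee, h.ff, h.ef, h.fe,
      zero_mul, mul_zero, zero_add, add_zero, mul_one] at h7
    exact h7
  have h7 : g₁ = S.R e (S.ε * r) := by
    refine h.ext ?_ ?_ fun x h1 h2 => ?_
    · rw [e1, S.T_fix h.ee h6.eps h.ee]
    · rw [S.T_spec h.ee h6.eps, h.fe, S.εε', h5, add_comm]
    · rw [e2 x h1 h2, S.T_fix h.ee h6.eps h1]
  have h8 : g = m * g₁ := by rw [hg₁]; group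
  rw [h8]
  refine S.GT.mul_mem (S.m_mem h hc hm) ?_
  rw [h7]
  exact S.T_mem h.ee h6.eps

/-- elements preserving a hyperbolic plane -/
theorem plane_mem {e f : V} (h : S.Hyp e f) {g : G}
    (hx : ∀ x, S.h x e = 0 → S.h x f = 0 → S.ρ g x = x) : g ∈ S.GT := by
  have h4 : S.pr e f (S.ρ g e) = 0 := by
    refine S.eq_zero_of _ fun y => ?_
    have h5 : ∀ y, S.h y e = 0 → S.h y f = 0 → S.h (S.pr e f (S.ρ g e)) y = 0 := by
      intro y hy1 hy2
      rw [pr, S.sub, S.sub, S.smul, S.smul, S.flip hy1, S.flip hy2, mul_zero, mul_zero, sub_zero,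
        sub_zero]
      rw [← hx y hy1 hy2, S.iso]
      exact S.flip hy1
    rw [S.pr_eq e f y, S.addr, S.addr, S.smulr, S.smulr, h.pr_e, h.pr_f, zero_mul, zero_mul,
      add_zero, add_zero]
    exact h5 _ (h.pr_e y) (h.pr_f y)
  have h5 := S.pr_eq e f (S.ρ g e)
  rw [h4, zero_add] at h5
  set p := S.h (S.ρ g e) f with hp
  set q := S.h (S.ρ g e) e * S.ε with hq
  by_cases hq0 : q = 0
  · rw [hq0, zero_smul, add_zero] at h5
    refine S.plane_line h (c := p) ?_ h5 hx
    intro hp0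
    rw [hp0, zero_smul] at h5
    exact S.apply_ne g h.ne h5
  · have h6 : S.Lam (q⁻¹ * p) := by
      have h7 : S.h (S.ρ g e) (S.ρ g e) = 0 := by rw [S.iso, h.ee]
      rw [h5] at h7
      simp only [S.add, S.addr, S.smul, S.smulr, h.ee, h.ff, h.ef, h.fe, zero_mul, mul_zero,
        zero_add, add_zero, one_mul] at h7
      show q⁻¹ * p + S.ε * star (q⁻¹ * p) = 0
      have h8 : q⁻¹ * (p * star q + q * (S.ε * star p)) * star q⁻¹ = 0 := by
        rw [h7, mul_zero, zero_mul]
      rw [mul_add, add_mul, ← mul_assoc, mul_assoc (q⁻¹ * p), ← star_mul, inv_mul_cancel₀ hq0,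
        star_one, mul_one, inv_mul_cancel_left₀ hq0, mul_assoc, ← star_mul] at h8
      exact h8
    obtain ⟨b, hb0, hb⟩ := S.lam_exists
    have l1 : S.Lam (S.ε * (q⁻¹ * p)) := h6.eps
    have X1 : S.ρ (S.R e (S.ε * (q⁻¹ * p))) f = f + (q⁻¹ * p) • e := by
      rw [S.T_spec h.ee l1, h.fe, S.εε']
    have X2 : S.ρ (S.R e (S.ε * (q⁻¹ * p)))⁻¹ (f + (q⁻¹ * p) • e) = f := by
      rw [← X1, S.inv_apply]
    have hge : S.ρ g e = q • (f + (q⁻¹ * p) • e) := by
      rw [h5, smul_add, smul_smul, mul_inv_cancel_left₀ hq0, add_comm]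
    have W2 : S.ρ (w S e f b)⁻¹ f = b⁻¹ • e := by
      have e1 := S.inv_apply (w S e f b) (b⁻¹ • e)
      rw [map_smul, h.w_e hb0 hb, smul_smul, inv_mul_cancel₀ hb0, one_smul] at e1
      exact e1
    have key : (w S e f b)⁻¹ * ((S.R e (S.ε * (q⁻¹ * p)))⁻¹ * g) ∈ S.GT := by
      refine S.plane_line h (c := q * b⁻¹) (mul_ne_zero hq0 (inv_ne_zero hb0)) ?_ fun x h1 h2 => ?_
      · rw [S.mul_apply, S.mul_apply, hge, map_smul, X2, map_smul, W2, smul_smul]
      · rw [S.mul_apply, S.mul_apply, hx x h1 h2]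
        have e1 : S.ρ (S.R e (S.ε * (q⁻¹ * p)))⁻¹ x = x := by
          have := S.inv_apply (S.R e (S.ε * (q⁻¹ * p))) x
          rwa [S.T_fix h.ee l1 h1] at this
        have e2 : S.ρ (w S e f b)⁻¹ x = x := by
          have := S.inv_apply (w S e f b) x
          rwa [h.w_x hb0 hb h1 h2] at this
        rw [e1, e2]
    have e1 : g = S.R e (S.ε * (q⁻¹ * p)) * (w S e f b *
        ((w S e f b)⁻¹ * ((S.R e (S.ε * (q⁻¹ * p)))⁻¹ * g))) := by group
    rw [e1]
    exact S.GT.mul_mem (S.T_mem h.ee l1) (S.GT.mul_mem (S.w_mem h hb) key)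

/-- the vector `e + y + c f` -/
theorem exists_iso_add {e f : V} (h : S.Hyp e f) {y : V} (h1 : S.h y e = 0) (h2 : S.h y f = 0) :
    ∃ c : D, S.h (e + y + c • f) (e + y + c • f) = 0 := by
  have h1' := S.flip h1
  have h2' := S.flip h2
  obtain ⟨c, hc, -, -⟩ := S.qd.half (S.h y y)
  have hyy : S.ε * star (S.h y y) = S.h y y := (S.herm' y y).symm
  have hs : S.ε * star c = c := by
    have h1 : S.ε * star c + S.ε * star c = c + c := by
      rw [← mul_add, ← star_add, hc, hyy]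
    have h2 : (2 : D) * (S.ε * star c) = 2 * c := by rw [two_mul, two_mul, h1]
    exact mul_left_cancel₀ S.qd.two' h2
  refine ⟨-(S.ε * c), ?_⟩
  simp only [S.add, S.addr, S.smul, S.smulr, h.ee, h.ff, h.ef, h.fe, h1, h2, h1', h2', zero_mul,
    mul_zero, zero_add, add_zero, one_mul]
  rw [star_neg, star_mul, S.sε, ← S.εc, hs, neg_mul, S.εc c, mul_assoc, S.εε, mul_one, ← hc]
  abel

/-- a vector orthogonal to all isotropic vectors vanishes -/
theorem exists_not_orth {u : V} (hu : u ≠ 0) : ∃ e, S.h e e = 0 ∧ S.h u e ≠ 0 := by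
  by_contra hcon
  push Not at hcon
  obtain ⟨e, he0, hee⟩ := S.ex
  obtain ⟨f, h⟩ := S.exists_hyp he0 hee
  apply hu
  refine S.eq_zero_of u fun y => ?_
  rw [S.pr_eq e f y, S.addr, S.addr, S.smulr, S.smulr, hcon e hee, hcon f h.ff, zero_mul, zero_mul,
    add_zero, add_zero]
  obtain ⟨c, hc⟩ := S.exists_iso_add h (h.pr_e y) (h.pr_f y)
  have := hcon _ hc
  rw [S.addr, S.addr, S.smulr, hcon e hee, hcon f h.ff, zero_mul, zero_add, add_zero] at this
  exact this

/-- reflections are products of transvections -/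
theorem R_mem {u : V} {a : D} (h : a + S.ε * star a + S.ε * a * S.h u u * star a = 0) :
    S.R u a ∈ S.GT := by
  by_cases hu : S.h u u = 0
  · refine S.T_mem hu ?_
    rw [hu, mul_zero, zero_mul, add_zero] at h
    exact h
  have hu0 : u ≠ 0 := by rintro rfl; exact hu (S.zero _)
  obtain ⟨e, hee, hue⟩ := S.exists_not_orth hu0
  have heu : S.h e u ≠ 0 := fun h => hue (S.flip h)
  have h1 : S.h e ((star (S.h e u))⁻¹ • u) = 1 := by
    rw [S.smulr, star_inv₀, star_star, mul_inv_cancel₀ heu]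
  obtain ⟨c, h2, h3⟩ := S.iso_fix hee h1
  refine S.plane_mem ⟨hee, h2, h3⟩ fun x hx hx' => ?_
  rw [S.R_spec h]
  have h4 : S.h x u = 0 := by
    rw [S.addr, S.smulr, S.smulr, hx, zero_mul, add_zero, star_inv₀, star_star] at hx'
    exact (mul_eq_zero.1 hx').resolve_right (inv_ne_zero heu)
  rw [h4, zero_mul, zero_smul, add_zero]

/-- an element with `h(v, g v - v) = 0` for all `v` is trivial -/
theorem exists_moved {g : G} (hg : g ≠ 1) : ∃ v, S.h v (S.ρ g v - v) ≠ 0 := by
  by_contra hcon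
  push Not at hcon
  apply hg
  have h1 : ∀ v w, S.h v (S.ρ g w - w) = -S.h w (S.ρ g v - v) := by
    intro v w
    have h2 := hcon (v + w)
    have e : S.ρ g (v + w) - (v + w) = (S.ρ g v - v) + (S.ρ g w - w) := by
      rw [map_add]; abel
    rw [e, S.add, S.addr, S.addr, hcon v, hcon w, zero_add, add_zero] at h2
    exact eq_neg_of_add_eq_zero_left h2
  have h2 : ∀ v w, S.h v (S.ρ g w - w) = 0 := by
    intro v w
    refine S.qd.not_comm fun a => ?_
    have h3 := h1 (a • v) w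
    have e : S.ρ g (a • v) - a • v = a • (S.ρ g v - v) := by rw [map_smul, smul_sub]
    rw [S.smul, e, S.smulr, ← neg_mul, ← h1 v w] at h3
    exact h3
  refine S.inj _ _ fun x => ?_
  rw [S.one_apply]
  have h3 : S.ρ g x - x = 0 := S.eq_zero_of _ fun y => S.flip (h2 y x)
  exact sub_eq_zero.1 h3

/-- **The isometry group is generated by the transvections.** -/
theorem gt_eq_top [Module.Finite D V] : S.GT = ⊤ := by
  have key : ∀ (n : ℕ) (g : G), Module.finrank D V ≤
      Module.finrank D (LinearMap.ker (S.ρ g - 1)) + n → g ∈ S.GT := by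
    intro n
    induction n with
    | zero =>
      intro g hg
      have h1 : LinearMap.ker (S.ρ g - 1) = ⊤ := by
        refine Submodule.eq_top_of_finrank_eq (le_antisymm (Submodule.finrank_le _) ?_)
        rwa [add_zero] at hg
      have h2 : g = 1 := by
        refine S.inj _ _ fun x => ?_
        have h3 : x ∈ LinearMap.ker (S.ρ g - 1) := by rw [h1]; trivial
        rw [LinearMap.mem_ker, LinearMap.sub_apply] at h3
        rw [map_one]
        exact sub_eq_zero.1 h3
      rw [h2]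
      exact Subgroup.one_mem _
    | succ n ih =>
      intro g hg
      by_cases hg1 : g = 1
      · rw [hg1]; exact Subgroup.one_mem _
      obtain ⟨v, hv⟩ := S.exists_moved hg1
      have hR := S.refl_spec g hv
      set u := S.ρ g v - v with hu
      set r := S.R u (S.h v u)⁻¹ with hr
      have hmem : ∀ x, x ∈ LinearMap.ker (S.ρ g - 1) ↔ S.ρ g x = x := by
        intro x
        rw [LinearMap.mem_ker, LinearMap.sub_apply]
        show S.ρ g x - x = 0 ↔ _
        exact sub_eq_zero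
      have hmem' : ∀ x, x ∈ LinearMap.ker (S.ρ (r⁻¹ * g) - 1) ↔ S.ρ (r⁻¹ * g) x = x := by
        intro x
        rw [LinearMap.mem_ker, LinearMap.sub_apply]
        show S.ρ (r⁻¹ * g) x - x = 0 ↔ _
        exact sub_eq_zero
      have h1 : S.ρ r v = S.ρ g v := by
        rw [hR, mul_inv_cancel₀ hv, one_smul, hu]
        abel
      have h2 : ∀ x, S.ρ g x = x → S.ρ r x = x := by
        intro x hx
        have h3 : S.h x u = 0 := by
          rw [hu, S.subr]
          nth_rewrite 1 [← hx]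
          rw [S.iso, sub_self]
        rw [hR, h3, zero_mul, zero_smul, add_zero]
      have h3 : LinearMap.ker (S.ρ g - 1) < LinearMap.ker (S.ρ (r⁻¹ * g) - 1) := by
        rw [SetLike.lt_iff_le_and_exists]
        refine ⟨fun x hx => ?_, v, ?_, ?_⟩
        · rw [hmem] at hx
          rw [hmem', S.mul_apply, hx]
          have := S.inv_apply r x
          rwa [h2 x hx] at this
        · rw [hmem', S.mul_apply, ← h1, S.inv_apply]
        · rw [hmem]
          intro h4
          apply hv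
          rw [hu, h4, sub_self, S.zeror]
      have h4 := Submodule.finrank_lt_finrank_of_lt h3
      have h5 := ih (r⁻¹ * g) (by omega)
      have h6 : r ∈ S.GT := by
        by_cases huu : S.h u u = 0
        · have h7 : S.Lam (S.h v u)⁻¹ := by
            refine Lam.inv ?_
            have e1 : S.h u v = S.ε * star (S.h v u) := S.herm' _ _
            have e2 : S.h u u = S.h (S.ρ g v) u - S.h v u := by
              conv_lhs => rw [hu, S.sub]
            have e3 : S.h (S.ρ g v) u = -S.h u v := by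
              rw [hu, S.subr, S.sub, S.iso]
              abel
            rw [huu, e3, e1] at e2
            show S.h v u + S.ε * star (S.h v u) = 0
            have e4 : -(0 : D) = -(-(S.ε * star (S.h v u)) - S.h v u) := by rw [← e2]
            rw [neg_zero] at e4
            rw [e4]
            abel
          exact S.T_mem huu h7
        · refine S.R_mem ?_
          have e1 : S.h u v = S.ε * star (S.h v u) := S.herm' _ _
          have e2 : S.h u u = S.h (S.ρ g v) u - S.h v u := by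
            conv_lhs => rw [hu, S.sub]
          have e3 : S.h (S.ρ g v) u = -S.h u v := by
            rw [hu, S.subr, S.sub, S.iso]
            abel
          rw [e3, e1] at e2
          rw [e2, star_inv₀]
          set b := S.h v u with hb
          have h3' : star b * (star b)⁻¹ = 1 := mul_inv_cancel₀ (star_ne_zero.2 hv)
          have e4 : S.ε * b⁻¹ * (-(S.ε * star b) - b) * (star b)⁻¹ =
              -(b⁻¹) - S.ε * (star b)⁻¹ := by
            rw [S.εc b⁻¹, mul_sub, sub_mul, mul_neg, neg_mul, mul_assoc b⁻¹ S.ε, S.εε',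
              mul_assoc b⁻¹ (star b), h3', mul_one, ← S.εc b⁻¹, mul_assoc S.ε,
              inv_mul_cancel₀ hv, mul_one]
          rw [e4]
          abel
      have h7 : g = r * (r⁻¹ * g) := by group
      rw [h7]
      exact S.GT.mul_mem h6 h5
  rw [eq_top_iff]
  intro g _
  exact key (Module.finrank D V) g (by omega)

end HS

end Vale.Agent.P092.H670.Qn
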