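import Vale.Agent.P092.H670.Qn2

/-!
P092 (helper670), row CLASS-H, part 3: the isometry group is perfect, and simple modulo its centre,
which consists of `± 1`.
-/

set_option linter.all false

open scoped commutatorElement

namespace Vale.Agent.P092.H670.Qn

variable {k D V G : Type*} [Field k] [DivisionRing D] [StarRing D] [Algebra k D]
  [AddCommGroup V] [Module D V] [Group G] (S : HS k D V G)

namespace HS

/-- an element preserving all isotropic lines, on a pair -/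
theorem scal_pair {g : G} (H : ∀ x, S.h x x = 0 → ∃ c : D, S.ρ g x = c • x) {e f : V}
    (h : S.Hyp e f) : ∃ a b : D, S.ρ g e = a • e ∧ S.ρ g f = b • f ∧ a * star b = 1 ∧
      (∀ c, S.Lam c → a * c = c * b) ∧
      ∀ w, S.h w e = 0 → S.h w f = 0 → S.ρ g w = a • w := by
  obtain ⟨a, ha⟩ := H e h.ee
  obtain ⟨b, hb⟩ := H f h.ff
  have hab : a * star b = 1 := by
    have := S.iso g e f
    rw [ha, hb, S.smul, S.smulr, h.ef, one_mul] at this
    exact this
  have ha0 : a ≠ 0 := left_ne_zero_of_mul_eq_one hab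
  have hb0 : b ≠ 0 := by
    rintro rfl
    rw [star_zero, mul_zero] at hab
    exact zero_ne_one hab
  refine ⟨a, b, ha, hb, hab, fun c hc => ?_, fun w hw1 hw2 => ?_⟩
  · have h1 : S.h (e + c • f) (e + c • f) = 0 := by
      simp only [S.add, S.addr, S.smul, S.smulr, h.ee, h.ff, h.ef, h.fe, zero_mul, mul_zero,
        zero_add, add_zero, one_mul]
      rw [hc.star_eq, S.εc, neg_add_cancel]
    obtain ⟨d, hd⟩ := H _ h1
    rw [map_add, map_smul, ha, hb] at hd
    have e1 := congrArg (fun v => S.h v f) hd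
    have e2 := congrArg (fun v => S.h v e) hd
    simp only [S.add, S.smul, h.ee, h.ff, h.ef, h.fe, mul_zero, add_zero, zero_add,
      mul_one] at e1 e2
    rw [← e1, ← mul_assoc, ← mul_assoc] at e2
    exact (mul_right_cancel₀ S.ε0 e2).symm
  · obtain ⟨c, hc⟩ := S.exists_iso_add h hw1 hw2
    obtain ⟨d, hd⟩ := H _ hc
    rw [map_add, map_add, map_smul, ha, hb] at hd
    have g1 : S.h (S.ρ g w) f = 0 := by
      have := S.iso g w f
      rw [hb, S.smulr, hw2] at this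
      exact (mul_eq_zero.1 this).resolve_right (star_ne_zero.2 hb0)
    have g2 : S.h (S.ρ g w) e = 0 := by
      have := S.iso g w e
      rw [ha, S.smulr, hw1] at this
      exact (mul_eq_zero.1 this).resolve_right (star_ne_zero.2 ha0)
    have e1 := congrArg (fun v => S.h v f) hd
    have e2 := congrArg (fun v => S.h v e) hd
    simp only [S.add, S.smul, h.ee, h.ff, h.ef, h.fe, mul_zero, add_zero, zero_add,
      mul_one, g1, g2, hw1, hw2] at e1 e2
    rw [← e1, ← mul_assoc, ← mul_assoc] at e2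
    have e3 : c * b = a * c := mul_right_cancel₀ S.ε0 e2
    rw [← e1, smul_add, smul_add, smul_smul, smul_smul, e3] at hd
    have e4 := add_right_cancel hd
    exact add_left_cancel e4

/-- an element preserving all isotropic lines is `± 1` -/
theorem scalar_of {g : G} (H : ∀ x, S.h x x = 0 → ∃ c : D, S.ρ g x = c • x) :
    ∃ c : k, c * c = 1 ∧ ∀ x, S.ρ g x = algebraMap k D c • x := by
  -- a central factor
  have key : ∃ (e f : V) (a b : D), S.Hyp e f ∧ S.ρ g e = a • e ∧ S.ρ g f = b • f ∧ a * star b = 1 ∧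
      (∀ w, S.h w e = 0 → S.h w f = 0 → S.ρ g w = a • w) ∧ b = a ∧ ∀ x : D, a * x = x * a := by
    rcases S.hε with hε | hε
    · obtain ⟨e, he0, hee⟩ := S.ex
      obtain ⟨f, h⟩ := S.exists_hyp he0 hee
      obtain ⟨a, b, h1, h2, h3, h4, h5⟩ := S.scal_pair H h
      have hl : ∀ c, star c = -c → S.Lam c := fun c hc => Lam.of_star (by rw [hc, hε, one_mul])
      have hcen : ∀ x, a * x = x * a := by
        intro x
        obtain ⟨b₁, hb0, hb, hxb⟩ := S.qd.pure x
        have e1 := h4 b₁ (hl _ hb)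
        have e2 := h4 (x * b₁) (hl _ hxb)
        rw [mul_assoc x, ← e1, ← mul_assoc, ← mul_assoc] at e2
        exact mul_right_cancel₀ hb0 e2
      refine ⟨e, f, a, b, h, h1, h2, h3, h5, ?_, hcen⟩
      obtain ⟨c, hc0, hc⟩ := S.lam_exists
      have e1 := h4 c hc
      rw [hcen] at e1
      exact (mul_left_cancel₀ hc0 e1).symm
    · obtain ⟨-, e, f, e', f', a1, a2, a3, a4, a5, a6, hee, hef, hfe, hff⟩ := S.rk hε
      have h : S.Hyp e f := ⟨a1, a2, a3⟩
      have h' : S.Hyp e' f' := ⟨a4, a5, a6⟩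
      obtain ⟨a, b, h1, h2, h3, h4, h5⟩ := S.scal_pair H h
      have l1 : S.Lam 1 := Lam.of_star (by rw [hε, star_one, mul_one, neg_neg])
      have hab := h4 1 l1
      rw [mul_one, one_mul] at hab
      refine ⟨e, f, a, b, h, h1, h2, h3, h5, hab.symm, fun x => ?_⟩
      have e1 : S.h (e + x • e') (e + x • e') = 0 := by
        simp only [S.add, S.addr, S.smul, S.smulr, h.ee, h'.ee, hee, S.flip hee, zero_mul,
          mul_zero, add_zero]
      obtain ⟨d, hd⟩ := H _ e1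
      rw [map_add, map_smul, h1, h5 e' (S.flip hee) (S.flip hfe)] at hd
      have q1 := congrArg (fun v => S.h v f) hd
      have q2 := congrArg (fun v => S.h v f') hd
      simp only [S.add, S.smul, h.ef, h'.ef, hef, S.flip hfe, mul_zero, add_zero, zero_add,
        mul_one] at q1 q2
      rw [← q1] at q2
      exact q2.symm
  obtain ⟨e, f, a, b, h, h1, h2, h3, h5, rfl, hcen⟩ := key
  obtain ⟨s, hs0, hs⟩ := S.qd.conj b
  rw [hcen] at hs
  obtain ⟨c, hc⟩ := S.qd.sym b (mul_left_cancel₀ hs0 hs)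
  have hcc : c * c = 1 := by
    have e1 : star b = b := mul_left_cancel₀ hs0 hs
    rw [e1, hc, ← map_mul, ← map_one (algebraMap k D)] at h3
    exact FaithfulSMul.algebraMap_injective k D h3
  refine ⟨c, hcc, fun x => ?_⟩
  rw [← hc]
  conv_lhs => rw [S.pr_eq e f x]
  rw [map_add, map_add, map_smul, map_smul, h1, h2, h5 _ (h.pr_e x) (h.pr_f x), smul_smul,
    smul_smul, ← hcen, ← hcen]
  conv_rhs => rw [S.pr_eq e f x]
  rw [smul_add, smul_add, smul_smul, smul_smul]

theorem mem_center_of {g : G} (H : ∀ x, S.h x x = 0 → ∃ c : D, S.ρ g x = c • x) :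
    g ∈ Subgroup.center G := by
  obtain ⟨c, -, hc⟩ := S.scalar_of H
  rw [Subgroup.mem_center_iff]
  intro g'
  refine S.inj _ _ fun x => ?_
  rw [S.mul_apply, S.mul_apply, hc, hc, map_smul]

/-- an element commuting with one transvection preserves its line -/
theorem line_of_comm {g : G} {u : V} {a : D} (hu : S.h u u = 0) (hu0 : u ≠ 0) (ha : S.Lam a)
    (ha0 : a ≠ 0) (hc : g * S.R u a = S.R u a * g) : ∃ c : D, S.ρ g u = c • u := by
  have h1 : g * S.R u a * g⁻¹ = S.R u a := by rw [hc]; group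
  rw [S.T_conj g hu ha] at h1
  obtain ⟨y, hy⟩ := S.nd1 (S.apply_ne g hu0)
  have h2 : S.h y (S.ρ g u) ≠ 0 := by
    intro h
    have h3 := S.flip h
    rw [hy] at h3
    exact one_ne_zero h3
  have h3 := S.T_spec (u := S.ρ g u) (by rw [S.iso, hu]) ha y
  rw [h1, S.T_spec hu ha] at h3
  have h4 := add_left_cancel h3
  refine ⟨(S.h y (S.ρ g u) * a)⁻¹ * (S.h y u * a), ?_⟩
  rw [mul_smul, h4, smul_smul, inv_mul_cancel₀ (mul_ne_zero h2 ha0), one_smul]

/-- Central elements are `± 1`. -/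
theorem of_mem_center {g : G} (hg : g ∈ Subgroup.center G) :
    ∃ c : k, c * c = 1 ∧ ∀ x, S.ρ g x = algebraMap k D c • x := by
  refine S.scalar_of fun x hx => ?_
  by_cases h0 : x = 0
  · subst h0
    exact ⟨0, by rw [map_zero, smul_zero]⟩
  obtain ⟨a, ha0, ha⟩ := S.lam_exists
  exact S.line_of_comm hx h0 ha ha0 (Subgroup.mem_center_iff.1 hg _).symm

include S in
theorem finite_center : ((Subgroup.center G : Subgroup G) : Set G).Finite := by
  have h1 : ((Subgroup.center G : Subgroup G) : Set G) ⊆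
      {1} ∪ {g | ∀ x, S.ρ g x = algebraMap k D (-1) • x} := by
    intro g hg
    obtain ⟨c, hc, hx⟩ := S.of_mem_center hg
    have h0 : (c - 1) * (c + 1) = 0 := by linear_combination hc
    rcases mul_eq_zero.1 h0 with h | h
    · left
      have : c = 1 := by linear_combination h
      subst this
      exact S.inj _ _ fun x => by rw [hx, map_one, one_smul, S.one_apply]
    · right
      have : c = -1 := by linear_combination h
      subst this
      exact hx
  refine Set.Finite.subset (Set.Finite.union (Set.finite_singleton 1) ?_) h1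
  refine Set.Subsingleton.finite fun a ha b hb => ?_
  exact S.inj _ _ fun x => by rw [ha x, hb x]

/-! ### perfectness -/

theorem m_T {e f : V} {a : D} (h : S.Hyp e f) {r : k} {m : G}
    (hm : IsM S e f (algebraMap k D r) m) (ha : S.Lam a) :
    m * S.R e a * m⁻¹ = S.R e (algebraMap k D (r * r) * a) := by
  rw [S.T_conj m h.ee ha, hm.pe, S.T_smul _ h.ee ha, S.qd.stk, mul_assoc, ← Algebra.commutes,
    ← mul_assoc, map_mul]

include S in
/-- a homomorphism into a commutative group is trivial -/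
theorem hom_eq_one [Module.Finite D V] (hk : ∃ r : k, r ≠ 0 ∧ r * r ≠ 1) {A : Type*}
    [CommGroup A] (φ : G →* A) : φ = 1 := by
  obtain ⟨r, hr0, hr⟩ := hk
  have h1 : S.GT ≤ φ.ker := by
    refine (Subgroup.closure_le _).2 ?_
    rintro g ⟨u, a, hu, ha, rfl⟩
    show φ _ = 1
    by_cases hu0 : u = 0
    · subst hu0
      have : S.R 0 a = 1 := S.inj _ _ fun x => by
        rw [S.T_spec hu ha, S.one_apply, smul_zero, add_zero]
      rw [this, map_one]
    obtain ⟨f, h⟩ := S.exists_hyp hu0 hu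
    obtain ⟨m, hm⟩ := h.exists_m (HS.k_ne hr0)
    have hs : r * r - 1 ≠ 0 := sub_ne_zero.2 hr
    have hb := ha.kmul (r * r - 1)⁻¹
    have h2 := S.m_T h hm hb
    have h3 : S.R u a = m * S.R u (algebraMap k D (r * r - 1)⁻¹ * a) * m⁻¹ *
        (S.R u (algebraMap k D (r * r - 1)⁻¹ * a))⁻¹ := by
      rw [h2, S.T_inv hu hb, S.T_add hu (hb.kmul _) hb.neg]
      congr 1
      rw [← mul_assoc, ← map_mul, ← sub_eq_add_neg, ← sub_mul, ← map_sub]
      have : r * r * (r * r - 1)⁻¹ - (r * r - 1)⁻¹ = 1 := by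
        rw [← sub_one_mul, mul_inv_cancel₀ hs]
      rw [this, map_one, one_mul]
    rw [h3, map_mul, map_mul, map_mul, map_inv, map_inv, mul_comm (φ m), mul_inv_cancel_right,
      mul_inv_cancel]
  rw [S.gt_eq_top] at h1
  ext g
  exact MonoidHom.mem_ker.1 (h1 (Subgroup.mem_top g))

include S in
theorem perfect [Module.Finite D V] (hk : ∃ r : k, r ≠ 0 ∧ r * r ≠ 1) : commutator G = ⊤ := by
  have h1 := S.hom_eq_one hk (Abelianization.of : G →* Abelianization G)
  rw [eq_top_iff]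
  intro g _
  have h2 : (Abelianization.of g : Abelianization G) = 1 := by rw [h1]; rfl
  exact (QuotientGroup.eq_one_iff g).1 h2

/-! ### Simplicity -/

section simple

variable {N : Subgroup G}

theorem orb_one [hN : N.Normal] {g : G} (hg : g ∈ N) {x : V} (hx : S.h x x = 0)
    (hgx : S.h x (S.ρ g x) ≠ 0) {y : V} (hy : S.h y y = 0) (hyx : S.h x y ≠ 0) :
    ∃ n ∈ N, ∃ c : D, c ≠ 0 ∧ S.ρ n x = c • y := by
  have h1 := S.hyp_of hx (show S.h (S.ρ g x) (S.ρ g x) = 0 by rw [S.iso, hx]) hgx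
  have h2 := S.hyp_of hx hy hyx
  obtain ⟨t, ht1, ht2⟩ := S.move_f h1 h2
  have ht3 : S.ρ t⁻¹ x = x := by
    have := S.inv_apply t x
    rwa [ht1] at this
  have hs := star_ne_zero.2 hgx
  have hs' := star_ne_zero.2 hyx
  refine ⟨_, hN.conj_mem g hg t, star (S.h x (S.ρ g x)) * (star (S.h x y))⁻¹,
    mul_ne_zero hs (inv_ne_zero hs'), ?_⟩
  rw [S.mul_apply, S.mul_apply, ht3]
  have h3 : S.ρ g x = star (S.h x (S.ρ g x)) • ((star (S.h x (S.ρ g x)))⁻¹ • S.ρ g x) := by
    rw [smul_smul, mul_inv_cancel₀ hs, one_smul]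
  rw [h3, map_smul, ht2, smul_smul, ← h3]

theorem orb_all [hN : N.Normal] {g : G} (hg : g ∈ N) {x : V} (hx : S.h x x = 0)
    (hgx : S.h x (S.ρ g x) ≠ 0) {y : V} (hy0 : y ≠ 0) (hy : S.h y y = 0) :
    ∃ n ∈ N, ∃ c : D, c ≠ 0 ∧ S.ρ n x = c • y := by
  have hx0 : x ≠ 0 := by
    rintro rfl
    exact hgx (S.zero _)
  obtain ⟨z, hz, hxz, hyz⟩ := S.exists_common hx0 hy0 hx hy
  obtain ⟨n₁, hn₁, c₁, hc₁, h1⟩ := S.orb_one hg hx hgx hz hxz
  have hz' : z = c₁⁻¹ • S.ρ n₁ x := by rw [h1, smul_smul, inv_mul_cancel₀ hc₁, one_smul]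
  have h2 : S.h z (S.ρ (n₁ * g * n₁⁻¹) z) ≠ 0 := by
    rw [hz', S.mul_apply, S.mul_apply]
    simp only [map_smul, S.smul, S.smulr, S.inv_apply, S.iso]
    exact mul_ne_zero (inv_ne_zero hc₁) (mul_ne_zero hgx (star_ne_zero.2 (inv_ne_zero hc₁)))
  obtain ⟨n₂, hn₂, c₂, hc₂, h3⟩ := S.orb_one (hN.conj_mem g hg n₁) hz h2 hy
    (fun h => hyz (S.flip h))
  refine ⟨n₂ * n₁, N.mul_mem hn₂ hn₁, c₁ * c₂, mul_ne_zero hc₁ hc₂, ?_⟩
  rw [S.mul_apply, h1, map_smul, h3, smul_smul]

theorem exists_moving [hN : N.Normal] (H : ¬ N ≤ Subgroup.center G) :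
    ∃ g ∈ N, ∃ x, S.h x x = 0 ∧ S.h x (S.ρ g x) ≠ 0 := by
  obtain ⟨g, hg, hgc⟩ := SetLike.not_le_iff_exists.1 H
  have : ∃ x, S.h x x = 0 ∧ ∀ c : D, S.ρ g x ≠ c • x := by
    by_contra hcon
    push Not at hcon
    exact hgc (S.mem_center_of hcon)
  obtain ⟨x, hx, hxc⟩ := this
  by_cases hgx : S.h x (S.ρ g x) = 0
  · obtain ⟨y, hy⟩ : ∃ y, y = S.ρ g x := ⟨_, rfl⟩
    rw [← hy] at hgx
    have hxc' : ∀ c : D, y ≠ c • x := by rw [hy]; exact hxc
    have hyy : S.h y y = 0 := by rw [hy, S.iso, hx]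
    have hyx : S.h y x = 0 := S.flip hgx
    have hx0 : x ≠ 0 := by
      rintro rfl
      exact hxc 0 (by rw [map_zero, smul_zero])
    -- a vector orthogonal to `x`, not to `y`
    have hv : ∃ v₀, S.h x v₀ = 0 ∧ S.h y v₀ = 1 := by
      obtain ⟨x', hx'⟩ := S.exists_hyp hx0 hx
      have hne : y - S.h y x' • x ≠ 0 := fun h => hxc' _ (sub_eq_zero.1 h)
      obtain ⟨z, hz⟩ := S.nd1 hne
      refine ⟨z - star (S.h x z) • x', ?_, ?_⟩
      · rw [S.subr, S.smulr, hx'.ef, star_star, one_mul, sub_self]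
      · rw [S.sub, S.smul] at hz
        rw [S.subr, S.smulr, star_star, hz]
    obtain ⟨v₀, hv1, hv2⟩ := hv
    obtain ⟨c, hc1, hc2⟩ := S.iso_fix hyy hv2
    obtain ⟨v, hv⟩ : ∃ v, v = v₀ + c • y := ⟨_, rfl⟩
    rw [← hv] at hc1 hc2
    have hxv : S.h x v = 0 := by rw [hv, S.addr, S.smulr, hv1, hgx, zero_mul, add_zero]
    obtain ⟨a, ha0, ha⟩ := S.lam_exists
    have ht1 : S.ρ (S.R v a) x = x := S.T_fix hc1 ha hxv
    have ht1' : S.ρ (S.R v a)⁻¹ x = x := by
      have := S.inv_apply (S.R v a) x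
      rwa [ht1] at this
    refine ⟨S.R v a * g * (S.R v a)⁻¹ * g⁻¹, N.mul_mem (hN.conj_mem g hg _) (N.inv_mem hg),
      y, hyy, ?_⟩
    rw [S.mul_apply, S.mul_apply, S.mul_apply, hy, S.inv_apply, ht1', ← hy,
      S.T_spec hc1 ha, hc2, one_mul, S.addr, S.smulr, hyy, hc2, zero_add, one_mul]
    exact star_ne_zero.2 ha0
  · exact ⟨g, hg, x, hx, hgx⟩

include S in
/-- **Simplicity modulo the centre.** -/
theorem simple [Module.Finite D V] (hk : ∃ r : k, r ≠ 0 ∧ r * r ≠ 1) (N : Subgroup G)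
    [hN : N.Normal] : N ≤ Subgroup.center G ∨ N = ⊤ := by
  by_cases h : N ≤ Subgroup.center G
  · exact Or.inl h
  right
  obtain ⟨g, hg, x, hx, hgx⟩ := S.exists_moving h
  have hx0 : x ≠ 0 := by
    rintro rfl
    exact hgx (S.zero _)
  let T : Subgroup G :=
    { carrier := {t | ∃ a, S.Lam a ∧ t = S.R x a}
      one_mem' := ⟨0, Lam.zero, (S.T_zero x).symm⟩
      mul_mem' := by
        rintro _ _ ⟨a, ha, rfl⟩ ⟨b, hb, rfl⟩
        exact ⟨a + b, ha.add hb, S.T_add hx ha hb⟩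
      inv_mem' := by
        rintro _ ⟨a, ha, rfl⟩
        exact ⟨-a, ha.neg, S.T_inv hx ha⟩ }
  have hT : ∀ a ∈ T, ∀ b ∈ T, a * b = b * a := by
    rintro _ ⟨a, ha, rfl⟩ _ ⟨b, hb, rfl⟩
    rw [S.T_add hx ha hb, S.T_add hx hb ha, add_comm]
  have hNT : T ⊔ N = ⊤ := by
    rw [← S.gt_eq_top]
    refine le_antisymm (by rw [S.gt_eq_top]; exact le_top) ((Subgroup.closure_le _).2 ?_)
    rintro _ ⟨u, a, hu, ha, rfl⟩
    show S.R u a ∈ T ⊔ N
    by_cases h0 : u = 0
    · subst h0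
      have : S.R 0 a = 1 := S.inj _ _ fun x => by
        rw [S.T_spec hu ha, S.one_apply, smul_zero, add_zero]
      rw [this]
      exact Subgroup.one_mem _
    obtain ⟨n, hn, c, hc, h1⟩ := S.orb_all hg hx hgx h0 hu
    have e1 : u = S.ρ n (c⁻¹ • x) := by
      rw [map_smul, h1, smul_smul, inv_mul_cancel₀ hc, one_smul]
    have hcx : S.h (c⁻¹ • x) (c⁻¹ • x) = 0 := by rw [S.smul, S.smulr, hx, zero_mul, mul_zero]
    rw [e1, ← S.T_conj n hcx ha, S.T_smul _ hx ha]
    have hnN : n ∈ T ⊔ N := (le_sup_right : N ≤ T ⊔ N) hn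
    exact (T ⊔ N).mul_mem ((T ⊔ N).mul_mem hnN ((le_sup_left : T ≤ T ⊔ N) ⟨_, ha.conj _, rfl⟩))
      ((T ⊔ N).inv_mem hnN)
  have hcomm : ∀ a b : G, ⁅a, b⁆ ∈ N := by
    intro a b
    have ha : a ∈ T ⊔ N := by rw [hNT]; trivial
    have hb : b ∈ T ⊔ N := by rw [hNT]; trivial
    obtain ⟨t, ht, n, hn, rfl⟩ := Subgroup.mem_sup_of_normal_right.1 ha
    obtain ⟨t', ht', n', hn', rfl⟩ := Subgroup.mem_sup_of_normal_right.1 hb
    rw [← QuotientGroup.eq_one_iff]
    have e1 : ∀ a b : G, ((⁅a, b⁆ : G) : G ⧸ N) = ⁅(a : G ⧸ N), (b : G ⧸ N)⁆ := fun a b => rfl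
    have e2 : ((t * n : G) : G ⧸ N) = (t : G ⧸ N) := by
      rw [QuotientGroup.mk_mul, (QuotientGroup.eq_one_iff n).2 hn, mul_one]
    have e3 : ((t' * n' : G) : G ⧸ N) = (t' : G ⧸ N) := by
      rw [QuotientGroup.mk_mul, (QuotientGroup.eq_one_iff n').2 hn', mul_one]
    rw [e1, e2, e3, ← e1]
    have : ⁅t, t'⁆ = 1 := by
      rw [commutatorElement_eq_one_iff_mul_comm]
      exact hT t ht t' ht'
    rw [this]
    rfl
  have h2 : commutator G ≤ N := by
    rw [commutator_def, Subgroup.commutator_le]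
    exact fun a _ b _ => hcomm a b
  rw [S.perfect hk] at h2
  exact top_le_iff.1 h2

end simple

end HS

end Vale.Agent.P092.H670.Qn
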