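import Vale.Agent.P092.H670.Qn3
import Vale.Agent.P092.H933.HM1

/-!
P092 (helper670), row CLASS-H, part 4: centralisers, recurrence and the Mautner phenomenon for isometry
groups over a quaternion division algebra.
-/

set_option linter.all false

open Filter Topology

namespace Vale.Agent.P092.H670.Qn

open Vale.Agent.P092.H933 (Len)

/-- The topological axioms. -/
structure THS {k D V G : Type*} [NontriviallyNormedField k] [NormedDivisionRing D] [StarRing D]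
    [NormedAlgebra k D] [AddCommGroup V] [Module D V] [Group G] [TopologicalSpace G]
    (S : HS k D V G) : Prop where
  fd : Module.Finite D V
  cont : ∀ u a, S.h u u = 0 → S.Lam a → Continuous fun t : k => S.R u (algebraMap k D t * a)
  contB : ∀ x y, Continuous fun g : G => S.h (S.ρ g x) y

variable {k D V G : Type*} [NontriviallyNormedField k] [NormedDivisionRing D] [StarRing D]
    [NormedAlgebra k D] [AddCommGroup V] [Module D V] [Group G] [TopologicalSpace G]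
    {S : HS k D V G} (H : THS S)

namespace THS

theorem exists_big (k : Type*) [NontriviallyNormedField k] :
    ∃ s : k, 1 < ‖s‖ ∧ s ≠ 0 ∧ s * s ≠ 1 := by
  obtain ⟨s, hs⟩ := NormedField.exists_one_lt_norm k
  refine ⟨s, hs, ?_, ?_⟩
  · rintro rfl
    rw [norm_zero] at hs
    linarith
  · intro h
    have := congrArg norm h
    rw [norm_mul, norm_one] at this
    nlinarith

theorem hk (k : Type*) [NontriviallyNormedField k] : ∃ r : k, r ≠ 0 ∧ r * r ≠ 1 := by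
  obtain ⟨s, -, h1, h2⟩ := exists_big k
  exact ⟨s, h1, h2⟩

include H

theorem tendsto_T {α : Type*} {l : Filter α} {u : V} {a : D} (hu : S.h u u = 0) (ha : S.Lam a)
    {t : α → k} (ht : Tendsto t l (𝓝 0)) :
    Tendsto (fun x => S.R u (algebraMap k D (t x) * a)) l (𝓝 1) := by
  have h1 := ((H.cont u a hu ha).tendsto 0).comp ht
  rw [map_zero, zero_mul, S.T_zero] at h1
  exact h1

/-- An element with an open centraliser is central. -/
theorem cent (g : G) (h : ((Subgroup.centralizer {g} : Subgroup G) : Set G) ∈ 𝓝 1) :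
    g ∈ Subgroup.center G := by
  refine S.mem_center_of fun x hx => ?_
  by_cases h0 : x = 0
  · subst h0
    exact ⟨0, by rw [map_zero, smul_zero]⟩
  obtain ⟨a, ha0, ha⟩ := S.lam_exists
  have h1 : Tendsto (fun t : k => S.R x (algebraMap k D t * a)) (𝓝[≠] 0) (𝓝 1) :=
    H.tendsto_T hx ha (tendsto_id.mono_left nhdsWithin_le_nhds)
  obtain ⟨t, ht, ht0⟩ := ((h1.eventually h).and self_mem_nhdsWithin).exists
  refine S.line_of_comm hx h0 (ha.kmul t) (mul_ne_zero (HS.k_ne ht0) ha0) ?_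
  exact Subgroup.mem_centralizer_iff.1 ht g rfl

/-- Recurrence, before the quotient. -/
theorem rec_aux {g : G} (hg : g ∉ Subgroup.center G) :
    ∃ (h : G) (f : G → ℝ) (q : ℝ), Continuous f ∧ 1 < q ∧ (∀ x, f (h * x * h⁻¹) = q * f x) ∧
      (∀ z ∈ Subgroup.center G, ∀ x, f (x * z) = f x) ∧ 0 < f g := by
  have h1 : ∃ e, S.h e e = 0 ∧ ∀ c : D, S.ρ g e ≠ c • e := by
    by_contra hcon
    push Not at hcon
    exact hg (S.mem_center_of fun x hx => hcon x hx)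
  obtain ⟨e, hee, hne⟩ := h1
  have he0 : e ≠ 0 := by
    rintro rfl
    exact hne 0 (by rw [map_zero, smul_zero])
  obtain ⟨f, hf⟩ := S.exists_hyp he0 hee
  obtain ⟨s, hs, hs0, -⟩ := exists_big k
  obtain ⟨d, hd⟩ := hf.exists_m (HS.k_ne (D := D) hs0)
  have hn : ∀ c : k, ‖algebraMap k D c‖ = ‖c‖ := fun c => norm_algebraMap' D c
  have hz : ∀ y : V, ∀ z ∈ Subgroup.center G, ∀ x, ‖S.h (S.ρ (x * z) e) y‖ = ‖S.h (S.ρ x e) y‖ := by
    intro y z hz x
    obtain ⟨c, hc, hx⟩ := S.of_mem_center hz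
    have hc1 : ‖c‖ = 1 := by
      have h4 : ‖c‖ * ‖c‖ = 1 := by rw [← norm_mul, hc, norm_one]
      nlinarith [norm_nonneg c]
    rw [S.mul_apply, hx, map_smul, S.smul, norm_mul, hn, hc1, one_mul]
  have hconj : ∀ x y, S.h (S.ρ (d⁻¹ * x * d⁻¹⁻¹) e) y =
      algebraMap k D s * S.h (S.ρ x e) (S.ρ d y) := by
    intro x y
    rw [inv_inv, S.mul_apply, S.mul_apply, hd.pe, map_smul, map_smul, S.smul, S.iso_left, inv_inv]
  by_cases h2 : S.h (S.ρ g e) e = 0
  · -- a vector `y ⊥ e, f` seeing `g e`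
    have h3 : S.pr e f (S.ρ g e) ≠ 0 := by
      intro h0
      have := S.pr_eq e f (S.ρ g e)
      rw [h0, h2, zero_mul, zero_smul, zero_add, add_zero] at this
      exact hne _ this
    obtain ⟨y₀, hy₀⟩ := S.nd1 h3
    have he1 : S.h (S.pr e f y₀) e = 0 := hf.pr_e _
    have hf1 : S.h (S.pr e f y₀) f = 0 := hf.pr_f _
    have he1' := S.flip he1
    have hf1' := S.flip hf1
    have hy : S.h (S.ρ g e) (S.pr e f y₀) = 1 := by
      have q1 : S.h (S.pr e f (S.ρ g e)) (S.pr e f y₀) = 1 := by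
        have q2 : S.h (S.pr e f (S.ρ g e)) e = 0 := hf.pr_e _
        have q3 : S.h (S.pr e f (S.ρ g e)) f = 0 := hf.pr_f _
        generalize S.pr e f (S.ρ g e) = v at q2 q3 hy₀
        rw [HS.pr, S.subr, S.subr, S.smulr, S.smulr, q2, q3, zero_mul, zero_mul, sub_zero,
          sub_zero, hy₀]
      rw [S.pr_eq e f (S.ρ g e), S.add, S.add, S.smul, S.smul, he1', hf1', mul_zero, mul_zero,
        add_zero, add_zero, q1]
    refine ⟨d⁻¹, fun x => ‖S.h (S.ρ x e) (S.pr e f y₀)‖, ‖s‖, (H.contB _ _).norm, hs, ?_, ?_, ?_⟩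
    · intro x
      dsimp only
      rw [hconj, hd.px _ he1 hf1, norm_mul, hn]
    · exact hz _
    · dsimp only
      rw [hy, norm_one]
      exact one_pos
  · refine ⟨d⁻¹, fun x => ‖S.h (S.ρ x e) e‖, ‖s‖ * ‖s‖, (H.contB _ _).norm, ?_, ?_, hz _, ?_⟩
    · nlinarith
    · intro x
      dsimp only
      rw [hconj, hd.pe, S.smulr, S.qd.stk, norm_mul, norm_mul, hn]
      ring
    · exact norm_pos_iff.2 h2

/-! ### Mautner -/

theorem ker_opp {ℓ : G → ℝ} (hℓ : Len ℓ) {e f : V} (h : S.Hyp e f)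
    (hk : ∀ a, S.Lam a → S.R e a ∈ hℓ.ker) : ∀ b, S.Lam b → S.R f b ∈ hℓ.ker := by
  obtain ⟨b₀, hb0, hb⟩ := S.lam_exists
  obtain ⟨σ, hσ1, hσ0, -⟩ := exists_big k
  have hN : Tendsto (fun N : ℕ => (σ ^ N)⁻¹) atTop (𝓝 0) := by
    have h1 : ‖σ⁻¹‖ < 1 := by rw [norm_inv]; exact inv_lt_one_of_one_lt₀ hσ1
    have := tendsto_pow_atTop_nhds_zero_of_norm_lt_one h1
    simpa only [inv_pow] using this
  -- the Weyl elements
  have hW : ∀ r : k, r ≠ 0 → Tendsto (fun N : ℕ =>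
      ℓ (HS.w S e f (algebraMap k D (r * (σ ^ N)⁻¹) * b₀))) atTop (𝓝 0) := by
    intro r hr
    have t1 : Tendsto (fun N : ℕ => r * (σ ^ N)⁻¹) atTop (𝓝 0) := by
      have := hN.const_mul r
      rwa [mul_zero] at this
    have t2 := hℓ.cont.comp (H.tendsto_T h.ff hb t1)
    refine squeeze_zero (fun N => hℓ.nonneg _) (fun N => ?_) t2
    have m0 : S.Lam (-(S.ε * (algebraMap k D (r * (σ ^ N)⁻¹) * b₀)⁻¹)) :=
      (hb.kmul (r * (σ ^ N)⁻¹)).inv.eps.neg
    have m1 := hℓ.mul (S.R e (-(S.ε * (algebraMap k D (r * (σ ^ N)⁻¹) * b₀)⁻¹)) *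
      S.R f (algebraMap k D (r * (σ ^ N)⁻¹) * b₀))
      (S.R e (-(S.ε * (algebraMap k D (r * (σ ^ N)⁻¹) * b₀)⁻¹)))
    have m2 := hℓ.mul (S.R e (-(S.ε * (algebraMap k D (r * (σ ^ N)⁻¹) * b₀)⁻¹)))
      (S.R f (algebraMap k D (r * (σ ^ N)⁻¹) * b₀))
    have z : ℓ (S.R e (-(S.ε * (algebraMap k D (r * (σ ^ N)⁻¹) * b₀)⁻¹))) = 0 := hk _ m0
    show ℓ (S.R e (-(S.ε * (algebraMap k D (r * (σ ^ N)⁻¹) * b₀)⁻¹)) *
      S.R f (algebraMap k D (r * (σ ^ N)⁻¹) * b₀) *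
      (S.R e (-(S.ε * (algebraMap k D (r * (σ ^ N)⁻¹) * b₀)⁻¹)))) ≤
      ℓ (S.R f (algebraMap k D (r * (σ ^ N)⁻¹) * b₀))
    linarith
  -- the torus
  obtain ⟨m, hm⟩ := h.exists_m (HS.k_ne (D := D) hσ0)
  have hmk : m ∈ hℓ.ker := by
    have key : ∀ N : ℕ, ℓ m ≤ ℓ (HS.w S e f (algebraMap k D (1 * (σ ^ N)⁻¹) * b₀)) +
        ℓ (HS.w S e f (algebraMap k D (-σ * (σ ^ N)⁻¹) * b₀)) := by
      intro N
      have n0 : (σ ^ N)⁻¹ ≠ 0 := inv_ne_zero (pow_ne_zero _ hσ0)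
      have n1 : algebraMap k D (1 * (σ ^ N)⁻¹) * b₀ ≠ 0 :=
        mul_ne_zero (HS.k_ne (mul_ne_zero one_ne_zero n0)) hb0
      have n2 : algebraMap k D (-σ * (σ ^ N)⁻¹) * b₀ ≠ 0 :=
        mul_ne_zero (HS.k_ne (mul_ne_zero (neg_ne_zero.2 hσ0) n0)) hb0
      have h1 := h.w_w n2 (hb.kmul _) n1 (hb.kmul _)
      have e1 : -(algebraMap k D (-σ * (σ ^ N)⁻¹) * b₀ * (algebraMap k D (1 * (σ ^ N)⁻¹) * b₀)⁻¹) =
          algebraMap k D σ := by
        rw [mul_inv_rev, mul_assoc (algebraMap k D (-σ * (σ ^ N)⁻¹)), ← mul_assoc b₀,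
          mul_inv_cancel₀ hb0, one_mul, ← map_inv₀, ← map_mul, ← map_neg]
        congr 1
        field_simp
      rw [e1] at h1
      rw [hm.uniq h h1]
      exact hℓ.mul _ _
    have t3 := (hW 1 one_ne_zero).add (hW (-σ) (neg_ne_zero.2 hσ0))
    rw [add_zero] at t3
    exact le_antisymm (ge_of_tendsto' t3 key) (hℓ.nonneg _)
  -- contraction
  intro b hb'
  refine hℓ.mem_of_contract (d := fun N => m ^ N) (fun N => hℓ.ker.pow_mem hmk N) ?_
  have e1 : ∀ N : ℕ, m ^ N * S.R f b * (m ^ N)⁻¹ =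
      S.R f (algebraMap k D ((σ ^ N)⁻¹ * (σ ^ N)⁻¹) * b) := by
    intro N
    have h1 := hm.pow N
    rw [S.T_conj _ h.ff hb', h1.pf, ← map_pow, S.qd.stk, S.T_smul _ h.ff hb', star_inv₀, S.qd.stk,
      ← map_inv₀, mul_assoc, ← Algebra.commutes, ← mul_assoc, map_mul]
  simp only [e1]
  refine H.tendsto_T h.ff hb' ?_
  have := hN.mul hN
  rwa [mul_zero] at this

theorem ker_one {ℓ : G → ℝ} (hℓ : Len ℓ) {z x : V} (hz : S.h z z = 0) (hx : S.h x x = 0)
    (hzx : S.h z x ≠ 0) (hk : ∀ a, S.Lam a → S.R z a ∈ hℓ.ker) :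
    ∀ b, S.Lam b → S.R x b ∈ hℓ.ker := by
  intro b hb
  have h := S.hyp_of hz hx hzx
  have h1 := H.ker_opp hℓ h hk
  have hs := star_ne_zero.2 hzx
  have e1 : x = star (S.h z x) • ((star (S.h z x))⁻¹ • x) := by
    rw [smul_smul, mul_inv_cancel₀ hs, one_smul]
  have e2 : S.R x b = S.R ((star (S.h z x))⁻¹ • x) (star (star (S.h z x)) * b * star (S.h z x)) := by
    rw [← S.T_smul _ h.ff hb, ← e1]
  rw [e2]
  exact h1 _ (hb.conj _)

/-- **Mautner** -/
theorem ker_top {ℓ : G → ℝ} (hℓ : Len ℓ) {z : V} (hz0 : z ≠ 0) (hz : S.h z z = 0)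
    (hk : ∀ a, S.Lam a → S.R z a ∈ hℓ.ker) : hℓ.ker = ⊤ := by
  haveI := H.fd
  have h1 : S.GT ≤ hℓ.ker := by
    refine (Subgroup.closure_le _).2 ?_
    rintro _ ⟨u, a, hu, ha, rfl⟩
    show S.R u a ∈ hℓ.ker
    by_cases h0 : u = 0
    · subst h0
      have : S.R 0 a = 1 := S.inj _ _ fun x => by
        rw [S.T_spec hu ha, S.one_apply, smul_zero, add_zero]
      rw [this]
      exact Subgroup.one_mem _
    obtain ⟨y, hy, hzy, huy⟩ := S.exists_common hz0 h0 hz hu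
    exact H.ker_one hℓ hy hu (fun h => huy (S.flip h)) (H.ker_one hℓ hz hy hzy hk) a ha
  rw [S.gt_eq_top] at h1
  exact top_le_iff.1 h1

theorem simple' (N : Subgroup G) [N.Normal] : N ≤ Subgroup.center G ∨ N = ⊤ := by
  haveI := H.fd
  exact S.simple (hk k) N

theorem hom' {A : Type*} [CommGroup A] (φ : G →* A) : φ = 1 := by
  haveI := H.fd
  exact S.hom_eq_one (hk k) φ

end THS

end Vale.Agent.P092.H670.Qn
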